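import Mathlib.Combinatorics.SimpleGraph.Acyclic
import Mathlib.Data.Set.Card
import Mathlib.Data.Set.Finite.List
import Mathlib.GroupTheory.FinitelyPresentedGroup
import Mathlib.GroupTheory.FreeGroup.Reduce
import Mathlib.GroupTheory.GroupAction.Basic
import Mathlib.GroupTheory.Subgroup.Simple
import Mathlib.Tactic
import Mathlib.Data.Real.Basic
import Mathlib.Algebra.Order.Interval.Finset.Basic
import Mathlib.Data.Int.Interval
import Mathlib.Data.Set.Card.Arithmetic
import Mathlib.Order.Filter.AtTopBot.Basic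
import Mathlib.Topology.Homeomorph.Defs
import Mathlib.Topology.LocallyConstant.Basic
import Vale.Agent.P196.Defs

set_option linter.all false

section

section

namespace Vale.Agent.P196

open Function

section Words

variable {G : Type*} [Group G] {n : ℕ}

/-- The group element attached to a letter. -/
def ltr (s : Fin n → G) (l : Fin n × Bool) : G := cond l.2 (s l.1) (s l.1)⁻¹

/-- The group element attached to a word. -/
def ev (s : Fin n → G) (w : List (Fin n × Bool)) : G := (w.map (ltr s)).prod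

/-- The inverse letter. -/
def linv (l : Fin n × Bool) : Fin n × Bool := (l.1, !l.2)

theorem ltr_linv (s : Fin n → G) (l : Fin n × Bool) : ltr s (linv l) = (ltr s l)⁻¹ := by
  rcases l with ⟨i, b⟩
  cases b <;> simp [ltr, linv]

@[simp] theorem linv_linv (l : Fin n × Bool) : linv (linv l) = l := by
  rcases l with ⟨i, b⟩
  simp [linv]

@[simp] theorem ev_nil (s : Fin n → G) : ev s [] = 1 := rfl

theorem ev_cons (s : Fin n → G) (l : Fin n × Bool) (w : List (Fin n × Bool)) :
    ev s (l :: w) = ltr s l * ev s w := by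
  simp [ev]

theorem lift_mk_eq (s : Fin n → G) (w : List (Fin n × Bool)) :
    FreeGroup.lift s (FreeGroup.mk w) = ev s w := by
  rw [FreeGroup.lift_mk]
  rfl

end Words

section Glue

variable {G : Type*} [Group G] {n : ℕ} {X : Type*} [MulAction G X]

/-- Data making it possible to close up the slab `i < h ≤ j`. -/
structure GlueData (s : Fin n → G) (h : X → ℕ) (N i j R K : ℕ) (dm : Fin K → Prop)
    (c c' : Fin K → X) : Prop where
  hR : 2 ≤ R
  hi : R + 2 ≤ i
  hij : i + 2 * R + 4 ≤ j
  hj : j + R + 2 ≤ N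
  hstep : ∀ (x : X) (l : Fin n × Bool), 0 < h x → h x < N →
    h (ltr s l • x) ≤ h x + 1 ∧ h x ≤ h (ltr s l • x) + 1
  hc : ∀ a, dm a → h (c a) = i
  hc' : ∀ a, dm a → h (c' a) = j
  hcov : ∀ x, h x = i → (∃ l, h (ltr s l • x) = i + 1) → ∃ a, dm a ∧ c a = x
  hcov' : ∀ x, h x = j → (∃ l, h (ltr s l • x) = j + 1) → ∃ a, dm a ∧ c' a = x
  htype : ∀ (a b : Fin K) (w w' : List (Fin n × Bool)), dm a → dm b →
    w.length ≤ R → w'.length ≤ R →
    (ev s w • c a = ev s w' • c b ↔ ev s w • c' a = ev s w' • c' b)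
  hside : ∀ (a : Fin K) (w : List (Fin n × Bool)), dm a → w.length ≤ R →
    (i < h (ev s w • c a) ↔ j < h (ev s w • c' a))

variable {s : Fin n → G} {h : X → ℕ} {N i j R K : ℕ} {dm : Fin K → Prop} {c c' : Fin K → X}

/-- The partial identification of neighbourhoods of the two cuts. -/
def Th (s : Fin n → G) (dm : Fin K → Prop) (c c' : Fin K → X) (m : ℕ) (z z' : X) : Prop :=
  ∃ (a : Fin K) (w : List (Fin n × Bool)), dm a ∧ w.length ≤ m ∧ z = ev s w • c a ∧ z' = ev s w • c' a

theorem Th.mono {m m' : ℕ} (hm : m ≤ m') {z z' : X} (H : Th s dm c c' m z z') :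
    Th s dm c c' m' z z' := by
  obtain ⟨a, w, ha, hw, h1, h2⟩ := H
  exact ⟨a, w, ha, hw.trans hm, h1, h2⟩

theorem Th.step {m : ℕ} {z z' : X} (H : Th s dm c c' m z z') (l : Fin n × Bool) :
    Th s dm c c' (m + 1) (ltr s l • z) (ltr s l • z') := by
  obtain ⟨a, w, ha, hw, h1, h2⟩ := H
  refine ⟨a, l :: w, ha, by simpa only [List.length_cons, add_le_add_iff_right] using hw, ?_, ?_⟩
  · rw [ev_cons, mul_smul, ← h1]
  · rw [ev_cons, mul_smul, ← h2]

/-- Elements of the slab. -/
def Slab (h : X → ℕ) (i j : ℕ) (y : X) : Prop := i < h y ∧ h y ≤ j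

/-- `z` is a point near the slab represented by the slab point `y`. -/
def Rep (s : Fin n → G) (h : X → ℕ) (i j : ℕ) (dm : Fin K → Prop) (c c' : Fin K → X) (m : ℕ)
    (z y : X) : Prop :=
  Slab h i j y ∧ (z = y ∨ (j < h z ∧ Th s dm c c' m y z) ∨ (h z ≤ i ∧ Th s dm c c' m z y))

theorem Rep.mono {m m' : ℕ} (hm : m ≤ m') {z y : X} (H : Rep s h i j dm c c' m z y) :
    Rep s h i j dm c c' m' z y := by
  refine ⟨H.1, ?_⟩
  rcases H.2 with h1 | ⟨h1, h2⟩ | ⟨h1, h2⟩
  · exact Or.inl h1
  · exact Or.inr (Or.inl ⟨h1, h2.mono hm⟩)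
  · exact Or.inr (Or.inr ⟨h1, h2.mono hm⟩)

theorem height_bound (hstep : ∀ (x : X) (l : Fin n × Bool), 0 < h x → h x < N →
    h (ltr s l • x) ≤ h x + 1 ∧ h x ≤ h (ltr s l • x) + 1) (k r : ℕ) (hk : r + 1 ≤ k)
    (hk' : k + r + 1 ≤ N) (x : X) (hx : h x = k) (w : List (Fin n × Bool)) (hw : w.length ≤ r + 1) :
    k ≤ h (ev s w • x) + w.length ∧ h (ev s w • x) ≤ k + w.length := by
  induction w with
  | nil => simp [hx]
  | cons l w ih =>
    simp only [List.length_cons] at hw ⊢
    have ih' := ih (by omega)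
    rw [ev_cons, mul_smul]
    have := hstep (ev s w • x) l (by omega) (by omega)
    omega

theorem Th.heights (D : GlueData s h N i j R K dm c c') {m : ℕ} (hm : m ≤ R) {z z' : X}
    (H : Th s dm c c' m z z') :
    (i ≤ h z + m ∧ h z ≤ i + m) ∧ (j ≤ h z' + m ∧ h z' ≤ j + m) ∧ (i < h z ↔ j < h z') := by
  obtain ⟨a, w, ha, hw, rfl, rfl⟩ := H
  have h1 := height_bound D.hstep i R (by have := D.hi; omega)
    (by have := D.hj; have := D.hij; omega) (c a) (D.hc a ha) w (by omega)
  have h2 := height_bound D.hstep j R (by have := D.hi; have := D.hij; omega)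
    (by have := D.hj; omega) (c' a) (D.hc' a ha) w (by omega)
  refine ⟨by omega, by omega, D.hside a w ha (by omega)⟩

theorem Th.func (D : GlueData s h N i j R K dm c c') {z z' z'' : X}
    (H : Th s dm c c' R z z') (H' : Th s dm c c' R z z'') : z' = z'' := by
  obtain ⟨a, w, ha, hw, h1, h2⟩ := H
  obtain ⟨b, v, hb, hv, h3, h4⟩ := H'
  rw [h2, h4]
  exact (D.htype a b w v ha hb hw hv).1 (by rw [← h1, ← h3])

theorem Th.inj (D : GlueData s h N i j R K dm c c') {z z' z'' : X}
    (H : Th s dm c c' R z z'') (H' : Th s dm c c' R z' z'') : z = z' := by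
  obtain ⟨a, w, ha, hw, h1, h2⟩ := H
  obtain ⟨b, v, hb, hv, h3, h4⟩ := H'
  rw [h1, h3]
  exact (D.htype a b w v ha hb hw hv).2 (by rw [← h2, ← h4])

theorem Rep.unique (D : GlueData s h N i j R K dm c c') {z y y' : X}
    (H : Rep s h i j dm c c' R z y) (H' : Rep s h i j dm c c' R z y') : y = y' := by
  obtain ⟨⟨hy1, hy2⟩, H⟩ := H
  obtain ⟨⟨hy1', hy2'⟩, H'⟩ := H'
  have hij := D.hij
  rcases H with h1 | ⟨h1, h2⟩ | ⟨h1, h2⟩ <;> rcases H' with h1' | ⟨h1', h2'⟩ | ⟨h1', h2'⟩
  · rw [← h1, ← h1']
  · subst h1; omega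
  · subst h1; omega
  · subst h1'; omega
  · exact h2.inj D h2'
  · omega
  · subst h1'; omega
  · omega
  · exact h2.func D h2'

/-- One step out of the slab. -/
theorem Rep.base (D : GlueData s h N i j R K dm c c') {y : X} (hy : Slab h i j y)
    (l : Fin n × Bool) : ∃ y', Rep s h i j dm c c' 1 (ltr s l • y) y' := by
  obtain ⟨hy1, hy2⟩ := hy
  have hi := D.hi
  have hij := D.hij
  have hj := D.hj
  have hst := D.hstep y l (by omega) (by omega)
  rcases lt_or_ge j (h (ltr s l • y)) with hlt | hge
  · -- crossing the top cut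
    have e1 : h y = j := by omega
    have e2 : h (ltr s l • y) = j + 1 := by omega
    obtain ⟨a, hda, ha⟩ := D.hcov' y e1 ⟨l, e2⟩
    have hT : Th s dm c c' 1 (ltr s l • c a) (ltr s l • y) := by
      refine ⟨a, [l], hda, by simp, ?_, ?_⟩
      · simp [ev_cons]
      · simp [ev_cons, ha]
    have hH := hT.heights D (by have := D.hR; omega)
    refine ⟨ltr s l • c a, ⟨hH.2.2.2 hlt, by omega⟩, Or.inr (Or.inl ⟨hlt, hT⟩)⟩
  · rcases lt_or_ge i (h (ltr s l • y)) with hlt' | hge'
    · exact ⟨ltr s l • y, ⟨hlt', hge⟩, Or.inl rfl⟩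
    · -- crossing the bottom cut
      have e1 : h (ltr s l • y) = i := by omega
      have e2 : h (ltr s (linv l) • (ltr s l • y)) = i + 1 := by
        rw [ltr_linv, inv_smul_smul]; omega
      obtain ⟨a, hda, ha⟩ := D.hcov (ltr s l • y) e1 ⟨linv l, e2⟩
      have hT : Th s dm c c' 1 (ltr s l • y) (c' a) := by
        refine ⟨a, [], hda, by simp only [List.length_nil, zero_le], ?_, ?_⟩
        · simp [ha]
        · simp
      have := D.hc' a hda
      exact ⟨c' a, ⟨by omega, by omega⟩, Or.inr (Or.inr ⟨hge', hT⟩)⟩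

/-- The representation relation is compatible with the letters. -/
theorem Rep.step (D : GlueData s h N i j R K dm c c') {m : ℕ} (hm : m + 1 ≤ R) {z y : X}
    (H : Rep s h i j dm c c' m z y) (l : Fin n × Bool) :
    ∃ y', Rep s h i j dm c c' (m + 1) (ltr s l • z) y' ∧ Rep s h i j dm c c' R (ltr s l • y) y' := by
  have hi := D.hi
  have hij := D.hij
  have hj := D.hj
  obtain ⟨hy, H⟩ := H
  rcases H with h1 | ⟨h1, h2⟩ | ⟨h1, h2⟩
  · subst h1
    obtain ⟨y', hy'⟩ := Rep.base D hy l
    exact ⟨y', hy'.mono (by omega), hy'.mono (by omega)⟩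
  · -- `z` above the top cut
    have hT := h2.step l
    have hH := hT.heights D (by omega)
    rcases lt_or_ge j (h (ltr s l • z)) with hlt | hge
    · have hS : Slab h i j (ltr s l • y) := ⟨hH.2.2.2 hlt, by omega⟩
      exact ⟨ltr s l • y, ⟨hS, Or.inr (Or.inl ⟨hlt, hT⟩)⟩, ⟨hS, Or.inl rfl⟩⟩
    · have hle : h (ltr s l • y) ≤ i := by
        by_contra hcon
        have := hH.2.2.1 (by omega)
        omega
      have hS : Slab h i j (ltr s l • z) := ⟨by omega, hge⟩
      exact ⟨ltr s l • z, ⟨hS, Or.inl rfl⟩, ⟨hS, Or.inr (Or.inr ⟨hle, hT.mono (by omega)⟩)⟩⟩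
  · -- `z` below the bottom cut
    have hT := h2.step l
    have hH := hT.heights D (by omega)
    rcases lt_or_ge i (h (ltr s l • z)) with hlt | hge
    · have hS : Slab h i j (ltr s l • z) := ⟨hlt, by omega⟩
      have hlt' : j < h (ltr s l • y) := hH.2.2.1 hlt
      exact ⟨ltr s l • z, ⟨hS, Or.inl rfl⟩, ⟨hS, Or.inr (Or.inl ⟨hlt', hT.mono (by omega)⟩)⟩⟩
    · have hle : h (ltr s l • y) ≤ j := by
        by_contra hcon
        have := hH.2.2.2 (by omega)
        omega
      have hS : Slab h i j (ltr s l • y) := ⟨by (clear * - hm hij hH; omega), hle⟩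
      exact ⟨ltr s l • y, ⟨hS, Or.inr (Or.inr ⟨hge, hT⟩)⟩, ⟨hS, Or.inl rfl⟩⟩

/-- The action of a letter on the closed-up slab. -/
noncomputable def sig (D : GlueData s h N i j R K dm c c') (l : Fin n × Bool)
    (y : {y : X // Slab h i j y}) : {y : X // Slab h i j y} :=
  ⟨(Rep.base D y.2 l).choose, (Rep.base D y.2 l).choose_spec.1⟩

theorem sig_spec (D : GlueData s h N i j R K dm c c') (l : Fin n × Bool)
    (y : {y : X // Slab h i j y}) :
    Rep s h i j dm c c' R (ltr s l • (y : X)) (sig D l y : X) :=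
  (Rep.base D y.2 l).choose_spec.mono (by have := D.hR; omega)

/-- The action of a word on the closed-up slab. -/
noncomputable def sigw (D : GlueData s h N i j R K dm c c') (w : List (Fin n × Bool))
    (y : {y : X // Slab h i j y}) : {y : X // Slab h i j y} :=
  w.foldr (fun l z => sig D l z) y

theorem sigw_spec (D : GlueData s h N i j R K dm c c') (w : List (Fin n × Bool)) (hw : w.length ≤ R)
    (y : {y : X // Slab h i j y}) :
    Rep s h i j dm c c' w.length (ev s w • (y : X)) (sigw D w y : X) := by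
  induction w with
  | nil =>
    refine ⟨y.2, Or.inl ?_⟩
    simp [sigw]
  | cons l w ih =>
    simp only [List.length_cons] at hw
    have ih' := ih (by omega)
    obtain ⟨y', h1, h2⟩ := Rep.step D (by omega) ih' l
    have e : y' = (sigw D (l :: w) y : X) := by
      have h3 := sig_spec D l (sigw D w y)
      exact h2.unique D h3
    rw [ev_cons, mul_smul]
    rw [← e]
    exact h1

theorem sigw_of_ev_eq_one (D : GlueData s h N i j R K dm c c') (w : List (Fin n × Bool))
    (hw : w.length ≤ R) (h1 : ev s w = 1) (y : {y : X // Slab h i j y}) : sigw D w y = y := by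
  have H := (sigw_spec D w hw y).mono hw
  rw [h1, one_smul] at H
  have H' : Rep s h i j dm c c' R (y : X) (y : X) := ⟨y.2, Or.inl rfl⟩
  exact Subtype.ext (H.unique D H')

/-- A slab point fixed by all letters after closing up is fixed by all letters. -/
theorem fixed_of_sig_fixed (D : GlueData s h N i j R K dm c c') (l : Fin n × Bool)
    (y : {y : X // Slab h i j y}) (hy : sig D l y = y) : ltr s l • (y : X) = y := by
  have hi := D.hi
  have hij := D.hij
  have hj := D.hj
  have hR := D.hR
  obtain ⟨y', hy'⟩ := Rep.base D y.2 l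
  have e : y' = (y : X) := by
    have h1 := (hy'.mono (show 1 ≤ R by omega)).unique D (sig_spec D l y)
    rw [h1, hy]
  subst e
  have hS := y.2
  obtain ⟨hS1, hS2⟩ := hS
  have hst := D.hstep y l (by omega) (by omega)
  rcases hy'.2 with h1 | ⟨h1, h2⟩ | ⟨h1, h2⟩
  · exact h1
  · have := h2.heights D (by omega)
    omega
  · have := h2.heights D (by omega)
    omega

theorem sig_linv_sig (D : GlueData s h N i j R K dm c c') (l : Fin n × Bool)
    (y : {y : X // Slab h i j y}) : sig D (linv l) (sig D l y) = y := by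
  have := sigw_of_ev_eq_one D [linv l, l] (by have := D.hR; simpa using this)
    (by simp [ev_cons, ltr_linv]) y
  simpa [sigw] using this

/-- The permutation of the closed-up slab attached to a generator. -/
noncomputable def perm (D : GlueData s h N i j R K dm c c') (k : Fin n) :
    Equiv.Perm {y : X // Slab h i j y} where
  toFun := sig D (k, true)
  invFun := sig D (k, false)
  left_inv := fun y => by simpa [linv] using sig_linv_sig D (k, true) y
  right_inv := fun y => by simpa [linv] using sig_linv_sig D (k, false) y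

theorem lift_perm_apply (D : GlueData s h N i j R K dm c c') (w : List (Fin n × Bool))
    (y : {y : X // Slab h i j y}) :
    FreeGroup.lift (perm D) (FreeGroup.mk w) y = sigw D w y := by
  rw [lift_mk_eq]
  induction w with
  | nil => simp only [ev_nil, Equiv.Perm.coe_one, id_eq, sigw, List.foldr_nil]
  | cons l w ih =>
    rw [ev_cons, Equiv.Perm.mul_apply, ih]
    rcases l with ⟨k, b⟩
    cases b
    · rfl
    · rfl

end Glue

end Vale.Agent.P196
end
end

section

section

namespace Vale.Agent.P196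

open Function

section Quot

variable {G : Type*} [Group G] {n : ℕ} {X : Type*} [MulAction G X]

theorem eq_lift_of (φ : FreeGroup (Fin n) →* G) :
    φ = FreeGroup.lift (fun k => φ (FreeGroup.of k)) := by
  ext k
  simp

theorem map_mk_eq_ev (φ : FreeGroup (Fin n) →* G) (w : List (Fin n × Bool)) :
    φ (FreeGroup.mk w) = ev (fun k => φ (FreeGroup.of k)) w := by
  conv_lhs => rw [eq_lift_of φ]
  rw [lift_mk_eq]

/-- If some group element moves `x` then some letter does. -/
theorem exists_letter_moving (φ : FreeGroup (Fin n) →* G) (hφ : Surjective φ) {x : X}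
    (hx : ∃ g : G, g • x ≠ x) : ∃ l, ltr (fun k => φ (FreeGroup.of k)) l • x ≠ x := by
  obtain ⟨g, hg⟩ := hx
  by_contra hcon
  push Not at hcon
  apply hg
  obtain ⟨u, rfl⟩ := hφ g
  rw [← FreeGroup.mk_toWord (x := u), map_mk_eq_ev]
  generalize u.toWord = w
  induction w with
  | nil => simp
  | cons l w ih => rw [ev_cons, mul_smul, ih, hcon l]

/-- A successful closing up yields a nontrivial finite quotient. -/
theorem quotient_of_glue (φ : FreeGroup (Fin n) →* G) (hφ : Surjective φ)
    (S : Set (FreeGroup (Fin n))) (hS : Subgroup.normalClosure S = φ.ker)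
    {h : X → ℕ} {N i j R K : ℕ} {dm : Fin K → Prop} {c c' : Fin K → X}
    (D : GlueData (fun k => φ (FreeGroup.of k)) h N i j R K dm c c')
    (hlen : ∀ x ∈ S, x.toWord.length ≤ R)
    (hfin : {x : X | 0 < h x ∧ h x < N}.Finite)
    (hmv : ∀ x, 0 < h x → h x < N → ∃ g : G, g • x ≠ x)
    (hex : ∃ x, Slab h i j x) :
    ∃ M : Subgroup G, M.Normal ∧ M.FiniteIndex ∧ M ≠ ⊤ := by
  classical
  set s : Fin n → G := fun k => φ (FreeGroup.of k) with hs
  have hi := D.hi
  have hij := D.hij
  have hj := D.hj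
  have hYfin : Finite {y : X // Slab h i j y} := by
    refine Set.Finite.to_subtype (s := {y : X | Slab h i j y}) (hfin.subset ?_)
    rintro y ⟨h1, h2⟩
    exact ⟨by omega, by omega⟩
  have hker : φ.ker ≤ (FreeGroup.lift (perm D)).ker := by
    rw [← hS]
    refine Subgroup.normalClosure_le_normal ?_
    intro x hx
    have hx1 : φ x = 1 := by
      have : x ∈ φ.ker := by
        rw [← hS]
        exact Subgroup.subset_normalClosure hx
      exact this
    have hxe : ev s x.toWord = 1 := by
      rw [← hx1, ← map_mk_eq_ev, FreeGroup.mk_toWord]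
    change FreeGroup.lift (perm D) x = 1
    ext y
    conv_lhs => rw [← FreeGroup.mk_toWord (x := x)]
    rw [lift_perm_apply, sigw_of_ev_eq_one D _ (hlen x hx) hxe]
    rfl
  let ψ : G →* Equiv.Perm {y : X // Slab h i j y} :=
    (φ.liftOfSurjective hφ) ⟨FreeGroup.lift (perm D), hker⟩
  have hψ : ∀ x, ψ (φ x) = FreeGroup.lift (perm D) x := fun x =>
    MonoidHom.liftOfRightInverse_comp_apply φ _ _ ⟨FreeGroup.lift (perm D), hker⟩ x
  refine ⟨ψ.ker, inferInstance, ?_, ?_⟩
  · exact Subgroup.finiteIndex_ker ψ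
  · intro htop
    obtain ⟨x, hx⟩ := hex
    obtain ⟨l, hl⟩ := exists_letter_moving φ hφ
      (hmv x (by have := hx.1; omega) (by have := hx.2; omega))
    have h2 : ψ (φ (FreeGroup.mk [l])) = 1 := by
      have : φ (FreeGroup.mk [l]) ∈ ψ.ker := by rw [htop]; trivial
      exact this
    rw [hψ] at h2
    have h3 := lift_perm_apply D [l] ⟨x, hx⟩
    rw [h2] at h3
    simp only [sigw, List.foldr_cons, List.foldr_nil, Equiv.Perm.coe_one, id_eq] at h3
    exact hl (fixed_of_sig_fixed D l ⟨x, hx⟩ h3.symm)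

end Quot

/-- The slab property of a `G`-set, relative to a finite family of group elements: there are
slabs with arbitrarily many levels and with cuts of bounded size. -/
def SlabProperty {G : Type*} [Group G] {n : ℕ} (s : Fin n → G) (X : Type*) [MulAction G X]
    (K : ℕ) : Prop :=
  ∀ N : ℕ, ∃ (h : X → ℕ) (N' : ℕ), {x : X | 0 < h x ∧ h x < N'}.Finite ∧
    (∀ (x : X) (l : Fin n × Bool), 0 < h x → h x < N' →
      h (ltr s l • x) ≤ h x + 1 ∧ h x ≤ h (ltr s l • x) + 1) ∧
    (∀ k, 0 < k → k < N' → {x : X | h x = k ∧ ∃ l, h (ltr s l • x) = k + 1}.encard ≤ K) ∧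
    (∃ P : Finset ℕ, N ≤ P.card ∧ ∀ k ∈ P, 0 < k ∧ k < N' ∧ ∃ x, h x = k) ∧
    (∀ x, 0 < h x → h x < N' → ∃ g : G, g • x ≠ x)

theorem exists_enum {X : Type*} {T : Set X} {K : ℕ} (hT : T.encard ≤ K) (x₀ : X) :
    ∃ (dm : Fin K → Prop) (c : Fin K → X), (∀ a, dm a → c a ∈ T) ∧
      ∀ x ∈ T, ∃ a, dm a ∧ c a = x := by
  classical
  have hTf : T.Finite := Set.finite_of_encard_le_coe hT
  have hTK : hTf.toFinset.card ≤ K := by
    rw [hTf.encard_eq_coe_toFinset_card] at hT
    exact_mod_cast hT
  have hemb : Nonempty (hTf.toFinset ↪ Fin K) := by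
    apply Function.Embedding.nonempty_of_card_le
    simpa only [Set.Finite.mem_toFinset, Fintype.card_coe, Fintype.card_fin] using hTK
  obtain ⟨f⟩ := hemb
  refine ⟨fun a => ∃ x, f x = a, fun a => if hh : ∃ x, f x = a then (hh.choose : X) else x₀,
    ?_, ?_⟩
  · intro a ha
    simp only [ha, dif_pos]
    exact hTf.mem_toFinset.1 ha.choose.2
  · intro x hx
    have hx' : x ∈ hTf.toFinset := by simpa using hx
    have hh : ∃ y, f y = f ⟨x, hx'⟩ := ⟨_, rfl⟩
    refine ⟨f ⟨x, hx'⟩, hh, ?_⟩
    simp only [hh, dif_pos]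
    have := f.injective hh.choose_spec
    rw [this]

theorem strictMono_add {k : ℕ} (f : Fin k → ℕ) (hf : StrictMono f) (m : ℕ) :
    ∀ a b : Fin k, (b : ℕ) = a + m → f a + m ≤ f b := by
  induction m with
  | zero =>
    intro a b hab
    have : a = b := Fin.ext (by omega)
    subst this
    simp
  | succ m ih =>
    intro a b hab
    have hb := b.2
    let b' : Fin k := ⟨a + m, by omega⟩
    have h1 := ih a b' rfl
    have h2 : f b' < f b := hf (by
      rw [Fin.lt_def]
      change (a : ℕ) + m < b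
      omega)
    omega

theorem quotient_of_slabProperty {G : Type*} [Group G] {n : ℕ} {X : Type*} [MulAction G X]
    (φ : FreeGroup (Fin n) →* G) (hφ : Surjective φ)
    (hker : φ.ker.IsFinitelyNormallyGenerated) (K : ℕ)
    (H : SlabProperty (fun k => φ (FreeGroup.of k)) X K) :
    ∃ M : Subgroup G, M.Normal ∧ M.FiniteIndex ∧ M ≠ ⊤ := by
  classical
  obtain ⟨S, hSfin, hS⟩ := hker
  set s : Fin n → G := fun k => φ (FreeGroup.of k) with hs
  -- a bound on the lengths of relators
  obtain ⟨R, hR2, hlen⟩ : ∃ R, 2 ≤ R ∧ ∀ x ∈ S, x.toWord.length ≤ R := by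
    obtain ⟨B, hB⟩ := (hSfin.image (fun x : FreeGroup (Fin n) => x.toWord.length)).bddAbove
    refine ⟨max 2 B, le_max_left _ _, fun x hx => ?_⟩
    exact (hB ⟨x, hx, rfl⟩).trans (le_max_right _ _)
  let W := {w : List (Fin n × Bool) // w.length ≤ R}
  have hW : Finite W := (List.finite_length_le (Fin n × Bool) R).to_subtype
  let Ty := (Fin K → Prop) × ((Fin K × W) → (Fin K × W) → Prop) × ((Fin K × W) → Prop)
  have hTy : Finite Ty := inferInstance
  set M := Nat.card Ty with hM
  set D := 2 * R + 4 with hD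
  set N := D * (M + 1) + R + 4 with hN
  obtain ⟨h, N', hfin, hstep, hcut, ⟨P, hPcard, hP⟩, hmv⟩ := H N
  let f : Fin N → ℕ := P.orderEmbOfCardLe hPcard
  have hf : StrictMono f := (P.orderEmbOfCardLe hPcard).strictMono
  have hfP : ∀ t, f t ∈ P := fun t => Finset.orderEmbOfCardLe_mem P hPcard t
  have hN0 : 0 < N := by omega
  have hmulle : ∀ a : Fin (M + 1), D * (a + 1) ≤ D * (M + 1) := fun a =>
    Nat.mul_le_mul_left _ (by omega)
  let ix : Fin (M + 1) → Fin N := fun a => ⟨D * (a + 1), by have := hmulle a; omega⟩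
  set idx : Fin (M + 1) → ℕ := fun a => f (ix a) with hidx
  have hidxN : ∀ a, idx a + R + 2 ≤ N' := by
    intro a
    have h1 := hmulle a
    have h2 := strictMono_add f hf (N - 1 - D * (a + 1)) (ix a) ⟨N - 1, by omega⟩
      (by simp only [ix]; omega)
    have h3 := (hP _ (hfP ⟨N - 1, by omega⟩)).2.1
    simp only [hidx]
    omega
  have hidx0 : ∀ a, R + 2 ≤ idx a := by
    intro a
    have h2 := strictMono_add f hf (D * (a + 1)) ⟨0, hN0⟩ (ix a) (by simp [ix])
    have h3 : D * 1 ≤ D * (a + 1) := Nat.mul_le_mul_left _ (by omega)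
    simp only [hidx]
    omega
  have hidxP : ∀ a, ∃ x, h x = idx a := fun a => (hP _ (hfP (ix a))).2.2
  obtain ⟨x₀, -⟩ := hidxP ⟨0, by omega⟩
  have henum : ∀ a : Fin (M + 1), ∃ (dm : Fin K → Prop) (c : Fin K → X),
      (∀ b, dm b → h (c b) = idx a) ∧
      ∀ x, h x = idx a → (∃ l, h (ltr s l • x) = idx a + 1) → ∃ b, dm b ∧ c b = x := by
    intro a
    have h1 := hidx0 a
    have h2 := hidxN a
    obtain ⟨dm, c, hc1, hc2⟩ := exists_enum (hcut (idx a) (by omega) (by omega)) x₀
    exact ⟨dm, c, fun b hb => (hc1 b hb).1, fun x hx hl => hc2 x ⟨hx, hl⟩⟩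
  choose dm c hc hcov using henum
  let ty : Fin (M + 1) → Ty := fun a =>
    (dm a, fun p q => ev s p.2.1 • c a p.1 = ev s q.2.1 • c a q.1,
     fun p => idx a < h (ev s p.2.1 • c a p.1))
  have hninj : ¬ Injective ty := by
    intro hinj
    have := Nat.card_le_card_of_injective ty hinj
    rw [Nat.card_eq_fintype_card, Fintype.card_fin] at this
    omega
  obtain ⟨a, b, hab, hlt⟩ : ∃ a b, ty a = ty b ∧ a < b := by
    rw [Injective] at hninj
    push Not at hninj
    obtain ⟨a, b, hab, hne⟩ := hninj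
    rcases lt_or_gt_of_ne hne with h1 | h1
    · exact ⟨a, b, hab, h1⟩
    · exact ⟨b, a, hab.symm, h1⟩
  have hidxlt : idx a + 2 * R + 4 ≤ idx b := by
    have h1 : (a : ℕ) + 1 ≤ b := hlt
    have h2 : D * ((a : ℕ) + 1 + 1) ≤ D * ((b : ℕ) + 1) := Nat.mul_le_mul_left _ (by omega)
    have h3 : D * ((a : ℕ) + 1 + 1) = D * (a + 1) + D := by ring
    have h4 := strictMono_add f hf (D * (b + 1) - D * (a + 1)) (ix a) (ix b)
      (by simp only [ix]; omega)
    simp only [hidx]
    omega
  have hdm : dm a = dm b := congrArg Prod.fst hab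
  have D' : GlueData s h N' (idx a) (idx b) R K (dm a) (c a) (c b) :=
    { hR := hR2
      hi := hidx0 a
      hij := hidxlt
      hj := hidxN b
      hstep := hstep
      hc := hc a
      hc' := by rw [hdm]; exact hc b
      hcov := hcov a
      hcov' := by rw [hdm]; exact hcov b
      htype := by
        intro p q w w' _ _ hw hw'
        have h1 : (ty a).2.1 (p, ⟨w, hw⟩) (q, ⟨w', hw'⟩) =
            (ty b).2.1 (p, ⟨w, hw⟩) (q, ⟨w', hw'⟩) := by
          rw [hab]
        exact iff_of_eq h1
      hside := by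
        intro p w _ hw
        have h1 : (ty a).2.2 (p, ⟨w, hw⟩) = (ty b).2.2 (p, ⟨w, hw⟩) := by
          rw [hab]
        exact iff_of_eq h1 }
  obtain ⟨y, hy⟩ := hidxP b
  exact quotient_of_glue φ hφ S hS D' hlen hfin hmv ⟨y, by omega, by omega⟩

end Vale.Agent.P196
end
end

section

section

namespace Vale.Agent.P196

open Function

section Count

variable {α : Type*} {L : ℕ} {X : Type*}

/-- Append blocks of length `L` on top of the vertex `u`. -/
def app (W : List (List.Vector α L)) (u : List α) : List α :=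
  W.foldr (fun a v => a.toList ++ v) u

@[simp] theorem app_nil (u : List α) : app ([] : List (List.Vector α L)) u = u := rfl

@[simp] theorem app_cons (a : List.Vector α L) (W : List (List.Vector α L)) (u : List α) :
    app (a :: W) u = a.toList ++ app W u := rfl

theorem app_append (W' W : List (List.Vector α L)) (u : List α) :
    app (W' ++ W) u = app W' (app W u) := by
  simp [app, List.foldr_append]

theorem length_app (W : List (List.Vector α L)) (u : List α) :
    (app W u).length = u.length + L * W.length := by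
  induction W with
  | nil => simp
  | cons a W ih =>
    rw [app_cons, List.length_append, ih, List.Vector.toList_length, List.length_cons]
    ring

theorem suffix_app (W : List (List.Vector α L)) (u : List α) : u <:+ app W u := by
  induction W with
  | nil => exact List.suffix_rfl
  | cons a W ih => exact ih.trans (List.suffix_append _ _)

open Classical in
/-- Number of points of `F` lying below `u`. -/
noncomputable def cnt (F : Finset X) (p : X → List α) (u : List α) : ℕ :=
  (F.filter (fun x => u <:+ p x)).card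

theorem cnt_le_of_suffix (F : Finset X) (p : X → List α) {u v : List α} (h : u <:+ v) :
    cnt F p v ≤ cnt F p u := by
  classical
  unfold cnt
  refine Finset.card_le_card ?_
  intro x hx
  rw [Finset.mem_filter] at hx ⊢
  exact ⟨hx.1, h.trans hx.2⟩

theorem cnt_cons_le (F : Finset X) (p : X → List α) (a : List.Vector α L)
    (W : List (List.Vector α L)) (u : List α) :
    cnt F p (app (a :: W) u) ≤ cnt F p (app W u) :=
  cnt_le_of_suffix F p (by rw [app_cons]; exact List.suffix_append _ _)

theorem cnt_app_le (F : Finset X) (p : X → List α)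
    (W : List (List.Vector α L)) (u : List α) :
    cnt F p (app W u) ≤ cnt F p u :=
  cnt_le_of_suffix F p (suffix_app W u)

theorem cnt_nil (F : Finset X) (p : X → List α) : cnt F p [] = F.card := by
  classical
  unfold cnt
  congr 1
  ext x
  simp

theorem block_inj {a b : List.Vector α L} {v l : List α} (ha : a.toList ++ v <:+ l)
    (hb : b.toList ++ v <:+ l) : a = b := by
  have h := List.suffix_of_suffix_length_le ha hb (by simp)
  have h2 := h.eq_of_length (by simp)
  have h3 : a.toList = b.toList := List.append_cancel_right h2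
  exact List.Vector.toList_injective h3

variable [Fintype α]

theorem sum_cnt_le (F : Finset X) (p : X → List α) (v : List α) :
    ∑ a : List.Vector α L, cnt F p (a.toList ++ v) ≤ cnt F p v := by
  classical
  unfold cnt
  rw [← Finset.card_biUnion]
  · refine Finset.card_le_card ?_
    intro x hx
    simp only [Finset.mem_biUnion, Finset.mem_univ, true_and, Finset.mem_filter] at hx ⊢
    obtain ⟨a, hxF, ha⟩ := hx
    exact ⟨hxF, (List.suffix_append _ _).trans ha⟩
  · intro a _ b _ hab
    rw [Function.onFun, Finset.disjoint_left]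
    intro x hx hx'
    rw [Finset.mem_filter] at hx hx'
    exact hab (block_inj hx.2 hx'.2)

theorem cnt_le_sum (F : Finset X) (p : X → List α) (v : List α) (K : ℕ) (hL : 0 < L)
    (hK : ∀ T : Finset X, (∀ x ∈ T, v <:+ p x ∧ (p x).length ≤ v.length + 2 * L) → T.card ≤ K) :
    cnt F p v ≤ K + ∑ a : List.Vector α L, cnt F p (a.toList ++ v) := by
  classical
  have h1 : (F.filter (fun x => v <:+ p x)) ⊆
      (F.filter (fun x => v <:+ p x ∧ (p x).length < v.length + L)) ∪
      (Finset.univ : Finset (List.Vector α L)).biUnion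
        (fun a => F.filter (fun x => a.toList ++ v <:+ p x)) := by
    intro x hx
    rw [Finset.mem_filter] at hx
    obtain ⟨hxF, hx⟩ := hx
    by_cases hlen : (p x).length < v.length + L
    · exact Finset.mem_union_left _ (by rw [Finset.mem_filter]; exact ⟨hxF, hx, hlen⟩)
    · refine Finset.mem_union_right _ ?_
      rw [Finset.mem_biUnion]
      obtain ⟨t, ht⟩ := hx
      have htl : (p x).length = t.length + v.length := by rw [← ht]; simp
      refine ⟨⟨t.drop (t.length - L), by rw [List.length_drop]; omega⟩, Finset.mem_univ _, ?_⟩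
      rw [Finset.mem_filter]
      refine ⟨hxF, t.take (t.length - L), ?_⟩
      change t.take (t.length - L) ++ (t.drop (t.length - L) ++ v) = p x
      rw [← List.append_assoc, List.take_append_drop, ht]
  unfold cnt
  refine (Finset.card_le_card h1).trans ((Finset.card_union_le _ _).trans ?_)
  refine Nat.add_le_add ?_ Finset.card_biUnion_le
  refine hK _ ?_
  intro x hx
  rw [Finset.mem_filter] at hx
  exact ⟨hx.2.1, by omega⟩

/-- Number of places along the path `W` above `u` where points of `F` branch off. -/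
noncomputable def pop (F : Finset X) (p : X → List α) (u : List α) :
    List (List.Vector α L) → ℕ
  | [] => 0
  | a :: W => pop F p u W + (if cnt F p (app (a :: W) u) < cnt F p (app W u) then 1 else 0)

omit [Fintype α] in
theorem pop_append (F : Finset X) (p : X → List α) (u : List α)
    (W' W : List (List.Vector α L)) :
    pop F p u (W' ++ W) = pop F p (app W u) W' + pop F p u W := by
  induction W' with
  | nil => simp only [List.nil_append, pop, zero_add]
  | cons a W' ih =>
    rw [List.cons_append, pop, pop, ih]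
    have h1 : app (a :: (W' ++ W)) u = app (a :: W') (app W u) := by
      rw [← List.cons_append, app_append]
    have h2 : app (W' ++ W) u = app W' (app W u) := app_append _ _ _
    rw [h1, h2]
    omega

omit [Fintype α] in
theorem exists_max (F : Finset X) (p : X → List α) (u : List α) (hL : 0 < L)
    (hu : 0 < cnt F p u) :
    ∃ W : List (List.Vector α L), cnt F p (app W u) = cnt F p u ∧
      ∀ a, cnt F p (app (a :: W) u) < cnt F p u := by
  classical
  by_contra hcon
  push Not at hcon
  have key : ∀ m : ℕ, ∃ W : List (List.Vector α L), W.length = m ∧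
      cnt F p (app W u) = cnt F p u := by
    intro m
    induction m with
    | zero => exact ⟨[], rfl, rfl⟩
    | succ m ih =>
      obtain ⟨W, hW, hW'⟩ := ih
      obtain ⟨a, ha⟩ := hcon W hW'
      exact ⟨a :: W, by simp [hW], le_antisymm (cnt_app_le F p _ u) ha⟩
  obtain ⟨W, hW, hW'⟩ := key (F.sup (fun x => (p x).length) + 1)
  rw [← hW'] at hu
  unfold cnt at hu
  rw [Finset.card_pos] at hu
  obtain ⟨x, hx⟩ := hu
  rw [Finset.mem_filter] at hx
  have h1 := hx.2.length_le
  rw [length_app, hW] at h1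
  have h2 : (p x).length ≤ F.sup (fun x => (p x).length) :=
    Finset.le_sup (f := fun x => (p x).length) hx.1
  have h3 : 1 * (F.sup (fun x => (p x).length) + 1) ≤
      L * (F.sup (fun x => (p x).length) + 1) := Nat.mul_le_mul_right _ hL
  omega

/-- The bound for branches without bad points. -/
def Mb (K d : ℕ) : ℕ → ℕ
  | 0 => 0
  | t + 1 => K + d * Mb K d t

theorem branch_bound (F : Finset X) (p : X → List α) (K : ℕ) (hL : 0 < L)
    (hK : ∀ (v : List α) (T : Finset X),
      (∀ x ∈ T, v <:+ p x ∧ (p x).length ≤ v.length + 2 * L) → T.card ≤ K)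
    (hne : Nonempty α) (t : ℕ) :
    ∀ u, (∀ W : List (List.Vector α L), pop F p u W ≤ t) →
      cnt F p u ≤ Mb K (Fintype.card (List.Vector α L)) t := by
  classical
  induction t with
  | zero =>
    intro u hu
    by_contra hcon
    have hpos : 0 < cnt F p u := by omega
    obtain ⟨W, hW, hW'⟩ := exists_max F p u hL hpos
    obtain ⟨a0⟩ := hne
    have h1 := hu ((List.Vector.replicate L a0) :: W)
    rw [pop, if_pos (by rw [hW]; exact hW' _)] at h1
    omega
  | succ t ih =>
    intro u hu
    rcases Nat.eq_zero_or_pos (cnt F p u) with h0 | hpos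
    · omega
    obtain ⟨W, hW, hW'⟩ := exists_max F p u hL hpos
    have h2 : ∀ a : List.Vector α L, cnt F p (a.toList ++ app W u) ≤
        Mb K (Fintype.card (List.Vector α L)) t := by
      intro a
      rw [← app_cons]
      apply ih
      intro W'
      have h3 := hu (W' ++ a :: W)
      rw [pop_append, pop, if_pos (by rw [hW]; exact hW' _)] at h3
      omega
    have h4 := cnt_le_sum F p (app W u) K hL (hK _)
    rw [← hW, Mb]
    refine h4.trans (Nat.add_le_add_left ?_ _)
    refine (Finset.sum_le_sum fun a _ => h2 a).trans ?_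
    rw [Finset.sum_const, Finset.card_univ, smul_eq_mul]

theorem chain_bound (F B : Finset X) (p : X → List α) (K M : ℕ) (hL : 0 < L)
    (hK : ∀ (v : List α) (T : Finset X),
      (∀ x ∈ T, v <:+ p x ∧ (p x).length ≤ v.length + 2 * L) → T.card ≤ K)
    (hM : ∀ u, cnt B p u = 0 → cnt F p u ≤ M) (v : List α) :
    ∀ W : List (List.Vector α L), cnt B p (app W v) = cnt B p v →
      cnt F p v ≤ cnt F p (app W v) +
        pop F p v W * (K + Fintype.card (List.Vector α L) * M) := by
  classical
  intro W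
  induction W with
  | nil => intro _; simp only [app_nil, card_vector, le_add_iff_nonneg_right, zero_le]
  | cons a W ih =>
    intro hW
    have h1 := cnt_cons_le B p a W v
    have h2 := cnt_app_le B p W v
    have ih' := ih (by omega)
    rw [pop]
    by_cases hlt : cnt F p (app (a :: W) v) < cnt F p (app W v)
    · rw [if_pos hlt]
      have h3 := cnt_le_sum F p (app W v) K hL (hK _)
      have h4 : ∑ b : List.Vector α L, cnt F p (b.toList ++ app W v) ≤
          cnt F p (app (a :: W) v) + Fintype.card (List.Vector α L) * M := by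
        have h5 : ∀ b : List.Vector α L, b ≠ a → cnt B p (b.toList ++ app W v) = 0 := by
          intro b hb
          have h6 := sum_cnt_le (L := L) B p (app W v)
          have h7 : cnt B p (a.toList ++ app W v) + cnt B p (b.toList ++ app W v) ≤
              ∑ c : List.Vector α L, cnt B p (c.toList ++ app W v) := by
            have := Finset.sum_le_sum_of_subset (f := fun c : List.Vector α L =>
              cnt B p (c.toList ++ app W v)) (Finset.subset_univ ({a, b} : Finset _))
            rw [Finset.sum_pair (Ne.symm hb)] at this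
            exact this
          rw [app_cons] at h1 hW
          omega
        have h8 : ∀ b : List.Vector α L, cnt F p (b.toList ++ app W v) ≤
            (if b = a then cnt F p (app (a :: W) v) else 0) + M := by
          intro b
          by_cases hb : b = a
          · subst hb
            simp
          · rw [if_neg hb, zero_add]
            exact hM _ (h5 b hb)
        refine (Finset.sum_le_sum fun b _ => h8 b).trans ?_
        rw [Finset.sum_add_distrib, Finset.sum_ite_eq' Finset.univ a, Finset.sum_const,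
          Finset.card_univ, smul_eq_mul]
        simp only [Finset.mem_univ, ↓reduceIte, app_cons, card_vector, Std.le_refl]
      rw [add_mul, one_mul]
      omega
    · rw [if_neg hlt, add_zero]
      omega

/-- The counting lemma: if `F` is large compared with the set `B` of bad points, there is a
long path along which no bad point branches off and many points of `F` branch off. -/
theorem exists_good_path (F B : Finset X) (p : X → List α) (K : ℕ) (hL : 0 < L)
    (hK : ∀ (v : List α) (T : Finset X),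
      (∀ x ∈ T, v <:+ p x ∧ (p x).length ≤ v.length + 2 * L) → T.card ≤ K)
    (hne : Nonempty α) (P : ℕ) (hB : B.Nonempty)
    (hF : 2 * ((P + 1) * (K + Fintype.card (List.Vector α L) *
      Mb K (Fintype.card (List.Vector α L)) P)) * B.card < F.card) :
    ∃ (u : List α) (W : List (List.Vector α L)), cnt B p (app W u) = cnt B p u ∧
      P < pop F p u W := by
  classical
  by_contra hcon
  push Not at hcon
  set d := Fintype.card (List.Vector α L) with hd
  set M := Mb K d P with hMdef
  set C := (P + 1) * (K + d * M) with hC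
  have hM : ∀ u, cnt B p u = 0 → cnt F p u ≤ M := by
    intro u hu
    apply branch_bound F p K hL hK hne P u
    intro W
    apply hcon u W
    have := cnt_app_le B p W u
    omega
  have key : ∀ b : ℕ, ∀ v, cnt B p v = b → 0 < b → cnt F p v + C ≤ 2 * C * b := by
    intro b
    induction b using Nat.strong_induction_on with
    | _ b ih =>
      intro v hv hb
      obtain ⟨W, hW, hW'⟩ := exists_max (L := L) B p v hL (by omega)
      have h1 := chain_bound F B p K M hL hK hM v W hW
      have hP := hcon v W hW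
      have h2 := cnt_le_sum F p (app W v) K hL (hK _)
      have h3 := sum_cnt_le (L := L) B p (app W v)
      set bb : List.Vector α L → ℕ := fun a => cnt B p (a.toList ++ app W v) with hbb
      set ff : List.Vector α L → ℕ := fun a => cnt F p (a.toList ++ app W v) with hff
      set q : ℕ := (Finset.univ.filter (fun a => 0 < bb a)).card with hq
      have h4 : ∀ a, ff a + C * (if 0 < bb a then 1 else 0) ≤ M + 2 * C * bb a := by
        intro a
        by_cases ha : 0 < bb a
        · rw [if_pos ha, mul_one]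
          have := ih (bb a) (by rw [← hv]; exact hW' a) _ rfl ha
          simp only [hff]
          omega
        · rw [if_neg ha, mul_zero, add_zero]
          have h0 : bb a = 0 := by omega
          rw [h0, mul_zero, add_zero]
          exact hM _ h0
      have h5 : (∑ a, ff a) + C * q ≤ d * M + 2 * C * ∑ a, bb a := by
        have := Finset.sum_le_sum (s := Finset.univ) fun a _ => h4 a
        rw [Finset.sum_add_distrib, Finset.sum_add_distrib, ← Finset.mul_sum, ← Finset.mul_sum,
          Finset.sum_const, Finset.card_univ, smul_eq_mul, Finset.sum_boole] at this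
        simpa only [hq, hd, card_vector, ge_iff_le, Nat.cast_id] using this
      have h6 : 2 * (∑ a, bb a) + 2 ≤ 2 * b + q := by
        have h3' : ∑ a, bb a ≤ b := by
          rw [← hv, ← hW]; exact h3
        by_cases hq2 : 2 ≤ q
        · omega
        · have hq01 : q = 0 ∨ q = 1 := by omega
          rcases hq01 with hq0 | hq1
          · have h7 : ∀ a ∈ (Finset.univ : Finset (List.Vector α L)), bb a = 0 := by
              intro a _
              by_contra hne0
              have : a ∈ Finset.univ.filter (fun a => 0 < bb a) := by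
                rw [Finset.mem_filter]; exact ⟨Finset.mem_univ _, by omega⟩
              rw [Finset.card_eq_zero.1 (hq.symm.trans hq0)] at this
              simp at this
            rw [Finset.sum_eq_zero h7]
            omega
          · obtain ⟨a, ha⟩ := Finset.card_eq_one.1 (hq.symm.trans hq1)
            have h7 : ∑ a, bb a = bb a := by
              refine Finset.sum_eq_single a ?_ ?_
              · intro c _ hc
                by_contra hne0
                have : c ∈ Finset.univ.filter (fun a => 0 < bb a) := by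
                  rw [Finset.mem_filter]; exact ⟨Finset.mem_univ _, by omega⟩
                rw [ha, Finset.mem_singleton] at this
                exact hc this
              · intro h; exact absurd (Finset.mem_univ _) h
            have h8 := hW' a
            rw [h7]
            simp only [hbb]
            rw [app_cons] at h8
            omega
      have h9 : (∑ a, ff a) + 2 * C ≤ d * M + 2 * C * b := by
        have h10 : C * (2 * (∑ a, bb a) + 2) ≤ C * (2 * b + q) := Nat.mul_le_mul_left _ h6
        nlinarith only [h5, h10]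
      have h11 : pop F p v W * (K + d * M) ≤ P * (K + d * M) := Nat.mul_le_mul_right _ hP
      have h12 : C = P * (K + d * M) + (K + d * M) := by rw [hC]; ring
      have h13 : cnt F p (app W v) ≤ K + ∑ a, ff a := h2
      have h14 : cnt F p v ≤ cnt F p (app W v) + pop F p v W * (K + d * M) := h1
      clear_value ff bb q C M d
      linarith only [hC, h2, h9, h11, h14]
  have h1 := key (cnt B p []) [] rfl (by rw [cnt_nil]; exact Finset.card_pos.2 hB)
  rw [cnt_nil, cnt_nil] at h1
  omega

end Count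

end Vale.Agent.P196
end
end

section

section

namespace Vale.Agent.P196

open Function

section Height

variable {α : Type*} {L : ℕ}

open Classical in
/-- Height of a list along the path `W` above `u`. -/
noncomputable def hgt (u : List α) : List (List.Vector α L) → List α → ℕ
  | [], _ => 0
  | a :: W, l => hgt u W l + (if app (a :: W) u <:+ l then 1 else 0)

theorem hgt_le (u : List α) (W : List (List.Vector α L)) (l : List α) :
    hgt u W l ≤ W.length := by
  induction W with
  | nil => simp only [hgt, List.length_nil, Std.le_refl]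
  | cons a W ih =>
    rw [hgt, List.length_cons]
    split_ifs <;> omega

theorem hgt_eq_length (u : List α) (W : List (List.Vector α L)) (l : List α)
    (h : app W u <:+ l) : hgt u W l = W.length := by
  induction W with
  | nil => simp [hgt]
  | cons a W ih =>
    rw [hgt, List.length_cons, if_pos h]
    rw [ih ((by rw [app_cons]; exact List.suffix_append _ _ : app W u <:+ app (a :: W) u).trans h)]

theorem suffix_of_hgt_pos (u : List α) (W : List (List.Vector α L)) (l : List α)
    (h : 0 < hgt u W l) : u <:+ l := by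
  induction W with
  | nil => simp [hgt] at h
  | cons a W ih =>
    rw [hgt] at h
    by_cases h1 : app (a :: W) u <:+ l
    · exact (suffix_app _ _).trans h1
    · rw [if_neg h1] at h
      exact ih (by omega)

theorem hgt_ge_iff (u : List α) (W'' W' : List (List.Vector α L)) (l : List α)
    (hW' : 0 < W'.length) : W'.length ≤ hgt u (W'' ++ W') l ↔ app W' u <:+ l := by
  induction W'' with
  | nil =>
    rw [List.nil_append]
    constructor
    · intro h
      cases W' with
      | nil => simp at hW'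
      | cons a V =>
        rw [hgt, List.length_cons] at h
        have := hgt_le u V l
        by_contra hcon
        rw [if_neg hcon] at h
        omega
    · intro h
      rw [hgt_eq_length u W' l h]
  | cons b W'' ih =>
    rw [List.cons_append, hgt]
    constructor
    · intro h
      by_contra hcon
      have h1 : ¬ app (b :: (W'' ++ W')) u <:+ l := by
        intro h2
        apply hcon
        refine List.IsSuffix.trans ?_ h2
        rw [← List.cons_append, app_append]
        exact suffix_app _ _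
      rw [if_neg h1] at h
      exact hcon (ih.1 (by omega))
    · intro h
      have := ih.2 h
      omega

/-- Two lists are near if they have a common suffix of small colength. -/
def Near (L : ℕ) (l l' : List α) : Prop :=
  ∃ a b v : List α, l = a ++ v ∧ l' = b ++ v ∧ a.length ≤ L ∧ b.length ≤ L

theorem Near.symm {l l' : List α} (h : Near L l l') : Near L l' l := by
  obtain ⟨a, b, v, h1, h2, h3, h4⟩ := h
  exact ⟨b, a, v, h2, h1, h4, h3⟩

theorem exists_split (W : List (List.Vector α L)) (k : ℕ) (hk : k < W.length) :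
    ∃ (W'' : List (List.Vector α L)) (a : List.Vector α L) (W' : List (List.Vector α L)),
      W = W'' ++ (a :: W') ∧ W'.length = k := by
  have h1 : W = W.take (W.length - (k + 1)) ++ W.drop (W.length - (k + 1)) :=
    (List.take_append_drop _ _).symm
  have h2 : (W.drop (W.length - (k + 1))).length = k + 1 := by
    rw [List.length_drop]; omega
  rcases hd : W.drop (W.length - (k + 1)) with _ | ⟨a, W'⟩
  · rw [hd] at h2; simp at h2
  · rw [hd] at h1 h2
    exact ⟨_, a, W', h1, by simpa using h2⟩

theorem hgt_near (u : List α) (W : List (List.Vector α L)) {l l' : List α} (h : Near L l l') :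
    hgt u W l' ≤ hgt u W l + 1 := by
  by_contra hcon
  push Not at hcon
  set k := hgt u W l' with hk
  have hk1 : k ≤ W.length := hgt_le u W l'
  obtain ⟨W'', a, W', hW, hW'⟩ := exists_split W (k - 1) (by omega)
  have h1 : app (a :: W') u <:+ l' := by
    rw [← hgt_ge_iff u W'' (a :: W') l' (by simp), ← hW, List.length_cons]
    omega
  obtain ⟨c, b, v, h2, h3, h4, h5⟩ := h
  have h6 : app W' u <:+ v := by
    have h7 : app W' u <:+ l' := by
      refine List.IsSuffix.trans ?_ h1
      rw [app_cons]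
      exact List.suffix_append _ _
    have h8 : v <:+ l' := by rw [h3]; exact List.suffix_append _ _
    refine List.suffix_of_suffix_length_le h7 h8 ?_
    have h9 := h1.length_le
    rw [h3, app_cons, List.length_append, List.length_append, List.Vector.toList_length] at h9
    omega
  have h7 : app W' u <:+ l := by
    rw [h2]
    exact h6.trans (List.suffix_append _ _)
  have h8 : W'.length ≤ hgt u W l := by
    have hW2 : W = (W'' ++ [a]) ++ W' := by rw [hW]; simp
    rw [hW2]
    exact (hgt_ge_iff u (W'' ++ [a]) W' l (by omega)).2 h7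
  omega

theorem cut_near (u : List α) (W'' W' : List (List.Vector α L)) (a : List.Vector α L)
    {l l' : List α} (h : Near L l l') (hW' : 0 < W'.length)
    (hl : hgt u (W'' ++ a :: W') l = W'.length)
    (hl' : hgt u (W'' ++ a :: W') l' = W'.length + 1) :
    app W' u <:+ l ∧ l.length ≤ (app W' u).length + 2 * L := by
  have h1 : app W' u <:+ l := by
    rw [← hgt_ge_iff u (W'' ++ [a]) W' l hW']
    have : (W'' ++ [a]) ++ W' = W'' ++ a :: W' := by simp
    rw [this, hl]
  have h2 : app (a :: W') u <:+ l' := by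
    rw [← hgt_ge_iff u W'' (a :: W') l' (by simp), hl']
    simp
  have h3 : ¬ app (a :: W') u <:+ l := by
    rw [← hgt_ge_iff u W'' (a :: W') l (by simp), hl]
    simp only [List.length_cons, add_le_iff_nonpos_right, nonpos_iff_eq_zero, one_ne_zero, not_false_eq_true]
  refine ⟨h1, ?_⟩
  obtain ⟨c, b, v, h4, h5, h6, h7⟩ := h
  have h8 : v.length < (app (a :: W') u).length := by
    by_contra hcon
    apply h3
    have h9 : v <:+ l' := by rw [h5]; exact List.suffix_append _ _
    have h10 := List.suffix_of_suffix_length_le h2 h9 (by omega)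
    rw [h4]
    exact h10.trans (List.suffix_append _ _)
  rw [app_cons, List.length_append, List.Vector.toList_length] at h8
  rw [h4, List.length_append]
  omega

end Height

section TreeSlab

variable {α : Type*} {L : ℕ} {G : Type*} [Group G] {n : ℕ} {X : Type*} [MulAction G X]

theorem pop_le_card (F : Finset X) (p : X → List α) (u : List α)
    (W'' W' : List (List.Vector α L)) :
    ∃ P : Finset ℕ, pop F p u W' ≤ P.card ∧
      ∀ k ∈ P, k < W'.length ∧ ∃ x ∈ F, hgt u (W'' ++ W') (p x) = k := by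
  classical
  induction W' generalizing W'' with
  | nil => exact ⟨∅, by simp [pop], by simp only [Finset.notMem_empty, List.length_nil, not_lt_zero, List.append_nil, false_and, imp_self, implies_true]⟩
  | cons a W' ih =>
    obtain ⟨P, hP, hP'⟩ := ih (W'' ++ [a])
    have hcat : (W'' ++ [a]) ++ W' = W'' ++ a :: W' := by simp
    rw [hcat] at hP'
    rw [pop]
    split_ifs with hlt
    · refine ⟨insert W'.length P, ?_, ?_⟩
      · rw [Finset.card_insert_of_notMem]
        · omega
        · intro hmem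
          exact absurd (hP' _ hmem).1 (lt_irrefl _)
      · intro k hk
        rw [Finset.mem_insert] at hk
        rcases hk with rfl | hk
        · refine ⟨by simp, ?_⟩
          -- a point of `F` branching off
          obtain ⟨x, hx, hx'⟩ := Finset.exists_mem_notMem_of_card_lt_card hlt
          rw [Finset.mem_filter] at hx
          have hx2 : ¬ app (a :: W') u <:+ p x := fun h =>
            hx' (by rw [Finset.mem_filter]; exact ⟨hx.1, h⟩)
          refine ⟨x, hx.1, ?_⟩
          have h1 : ¬ (W'.length + 1 ≤ hgt u (W'' ++ a :: W') (p x)) := by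
            have := hgt_ge_iff u W'' (a :: W') (p x) (by simp)
            rw [List.length_cons] at this
            rw [this]
            exact hx2
          rcases Nat.eq_zero_or_pos W'.length with h0 | hpos
          · omega
          · have h2 := (hgt_ge_iff u (W'' ++ [a]) W' (p x) hpos).2 hx.2
            rw [hcat] at h2
            omega
        · obtain ⟨h1, h2⟩ := hP' k hk
          exact ⟨by simp; omega, h2⟩
    · refine ⟨P, by omega, ?_⟩
      intro k hk
      obtain ⟨h1, h2⟩ := hP' k hk
      exact ⟨by simp; omega, h2⟩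

theorem slab_of_good_path (s : Fin n → G) (F B : Finset X) (p : X → List α) (K : ℕ)
    (hK : ∀ (v : List α) (T : Finset X),
      (∀ x ∈ T, v <:+ p x ∧ (p x).length ≤ v.length + 2 * L) → T.card ≤ K)
    (hNear : ∀ (x : X) (l : Fin n × Bool), Near L (p x) (p (ltr s l • x)))
    (hFB : ∀ x ∈ F, x ∉ B → ∀ l, ltr s l • x ∈ F)
    (u : List α) (W : List (List.Vector α L)) (hW : cnt B p (app W u) = cnt B p u)
    (N : ℕ) (hpop : N < pop F p u W) (hmv : ∀ x ∈ F, ∃ g : G, g • x ≠ x) :
    ∃ (h : X → ℕ) (N' : ℕ), {x : X | 0 < h x ∧ h x < N'}.Finite ∧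
    (∀ (x : X) (l : Fin n × Bool), 0 < h x → h x < N' →
      h (ltr s l • x) ≤ h x + 1 ∧ h x ≤ h (ltr s l • x) + 1) ∧
    (∀ k, 0 < k → k < N' → {x : X | h x = k ∧ ∃ l, h (ltr s l • x) = k + 1}.encard ≤ K) ∧
    (∃ P : Finset ℕ, N ≤ P.card ∧ ∀ k ∈ P, 0 < k ∧ k < N' ∧ ∃ x, h x = k) ∧
    (∀ x, 0 < h x → h x < N' → ∃ g : G, g • x ≠ x) := by
  classical
  let h : X → ℕ := fun x => if x ∈ F then hgt u W (p x) else 0
  have hF : ∀ x, 0 < h x → x ∈ F ∧ h x = hgt u W (p x) := by
    intro x hx
    by_cases hxF : x ∈ F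
    · exact ⟨hxF, by simp [h, hxF]⟩
    · simp [h, hxF] at hx
  have hin : ∀ x ∈ F, h x = hgt u W (p x) := fun x hx => by simp [h, hx]
  have hnB : ∀ x, 0 < h x → h x < W.length → x ∉ B := by
    intro x hx hx' hxB
    obtain ⟨hxF, he⟩ := hF x hx
    have h1 : u <:+ p x := suffix_of_hgt_pos u W (p x) (by omega)
    have hsub : B.filter (fun x => app W u <:+ p x) ⊆ B.filter (fun x => u <:+ p x) := by
      intro y hy
      rw [Finset.mem_filter] at hy ⊢
      exact ⟨hy.1, (suffix_app W u).trans hy.2⟩
    have heq := Finset.eq_of_subset_of_card_le hsub (by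
      have := hW
      unfold cnt at this
      exact this.ge)
    have h2 : x ∈ B.filter (fun x => u <:+ p x) := by
      rw [Finset.mem_filter]; exact ⟨hxB, h1⟩
    rw [← heq, Finset.mem_filter] at h2
    have := hgt_eq_length u W (p x) h2.2
    omega
  refine ⟨h, W.length, ?_, ?_, ?_, ?_, ?_⟩
  · refine F.finite_toSet.subset ?_
    rintro x ⟨hx, -⟩
    exact (hF x hx).1
  · intro x l hx hx'
    obtain ⟨hxF, he⟩ := hF x hx
    have hlF := hFB x hxF (hnB x hx hx') l
    rw [he, hin _ hlF]
    exact ⟨hgt_near u W (hNear x l), hgt_near u W (hNear x l).symm⟩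
  · intro k hk hk'
    obtain ⟨W'', a, W', hWs, hWk⟩ := exists_split W k hk'
    have hsub : {x : X | h x = k ∧ ∃ l, h (ltr s l • x) = k + 1} ⊆ (F.filter (fun x =>
        app W' u <:+ p x ∧ (p x).length ≤ (app W' u).length + 2 * L) : Finset X) := by
      rintro x ⟨hx, l, hl⟩
      obtain ⟨hxF, he⟩ := hF x (by omega)
      obtain ⟨hlF, he'⟩ := hF (ltr s l • x) (by omega)
      rw [Finset.mem_coe, Finset.mem_filter]
      refine ⟨hxF, ?_⟩
      refine cut_near u W'' W' a (hNear x l) (by omega) ?_ ?_
      · rw [← hWs]; omega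
      · rw [← hWs]; omega
    refine (Set.encard_le_encard hsub).trans ?_
    rw [Set.encard_coe_eq_coe_finsetCard]
    have := hK (app W' u) (F.filter (fun x =>
        app W' u <:+ p x ∧ (p x).length ≤ (app W' u).length + 2 * L)) (by
      intro x hx
      rw [Finset.mem_filter] at hx
      exact hx.2)
    exact_mod_cast this
  · obtain ⟨P, hP, hP'⟩ := pop_le_card F p u [] W
    refine ⟨P.erase 0, ?_, ?_⟩
    · have := Finset.pred_card_le_card_erase (s := P) (a := 0)
      omega
    · intro k hk
      rw [Finset.mem_erase] at hk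
      obtain ⟨h1, x, hxF, hx⟩ := hP' k hk.2
      refine ⟨by omega, h1, x, ?_⟩
      rw [hin x hxF]
      simpa using hx
  · intro x hx hx'
    exact hmv x (hF x hx).1

end TreeSlab

end Vale.Agent.P196
end
end

section

section

namespace Vale.Agent.P196

open SimpleGraph

end Vale.Agent.P196
end
end

section

section

namespace Vale.Agent.P196.B

open Function

section Glue

variable {L Ω : Type*}

/-- Evaluation of a word (list of letters) acting on points, last letter first. -/
def wact (f : L → Ω → Ω) : List L → Ω → Ω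
  | [], v => v
  | l :: w, v => f l (wact f w v)

open Classical in
/-- The developing map used for the cut and glue construction. -/
noncomputable def dev (D D' : Set Ω) (θ θ' : Ω → Ω) (u : Ω) : Ω :=
  if u ∈ D then θ u else if u ∈ D' then u else θ' u

variable {a : L → Ω → Ω} {D D' A B : Set Ω} {θ θ' : Ω → Ω}

/-- Isomorphism of marked partial actions. -/
structure LocIso (a : L → Ω → Ω) (A D B E : Set Ω) (θ θ' : Ω → Ω) : Prop where
  mapsTo : ∀ u ∈ A, θ u ∈ B
  mapsTo' : ∀ u ∈ B, θ' u ∈ A
  left : ∀ u ∈ A, θ' (θ u) = u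
  right : ∀ u ∈ B, θ (θ' u) = u
  equi : ∀ u ∈ A, ∀ l, a l u ∈ A → θ (a l u) = a l (θ u)
  equi' : ∀ u ∈ B, ∀ l, a l u ∈ B → θ' (a l u) = a l (θ' u)
  side : ∀ u ∈ A, (u ∈ D ↔ θ u ∈ E)

/-- The data for gluing: `θ : A → B` is an isomorphism of partial actions which maps the side `D`
to the side `D'`. -/
structure GlueData (a : L → Ω → Ω) (D D' A B : Set Ω) (θ θ' : Ω → Ω) : Prop
    extends LocIso a A D B D' θ θ' where
  sub : D ⊆ D'
  subA : A ⊆ D'
  subB : ∀ u ∈ B, u ∉ D

theorem dev_mem (u : Ω) (h : u ∈ D) : dev D D' θ θ' u = θ u := by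
  unfold dev; simp [h]

theorem dev_mid (u : Ω) (h : u ∉ D) (h' : u ∈ D') : dev D D' θ θ' u = u := by
  unfold dev; simp [h, h']

theorem dev_out (u : Ω) (h : u ∉ D) (h' : u ∉ D') : dev D D' θ θ' u = θ' u := by
  unfold dev; simp [h, h']

theorem GlueData.side' (H : GlueData a D D' A B θ θ') (u : Ω) (hu : u ∈ B) :
    (θ' u ∈ D ↔ u ∈ D') := by
  rw [H.side _ (H.mapsTo' u hu), H.right u hu]

/-- The key step: developing commutes with a letter. -/
theorem dev_step (H : GlueData a D D' A B θ θ') (u : Ω) (l : L)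
    (h1 : u ∈ D → u ∈ A ∧ a l u ∈ A) (h2 : u ∉ D' → u ∈ B ∧ a l u ∈ B) :
    dev D D' θ θ' (a l (dev D D' θ θ' u)) = dev D D' θ θ' (a l u) := by
  by_cases hu : u ∈ D
  · obtain ⟨hA, hA'⟩ := h1 hu
    rw [dev_mem u hu, ← H.equi u hA l hA']
    by_cases hl : a l u ∈ D
    · rw [dev_mem (a l u) hl]
      exact dev_mid _ (H.subB _ (H.mapsTo _ hA')) ((H.side _ hA').1 hl)
    · rw [dev_mid (a l u) hl (H.subA hA')]
      rw [dev_out _ (H.subB _ (H.mapsTo _ hA')) (fun h => hl ((H.side _ hA').2 h)), H.left _ hA']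
  · by_cases hu' : u ∈ D'
    · rw [dev_mid u hu hu']
    · obtain ⟨hB, hB'⟩ := h2 hu'
      rw [dev_out u hu hu', ← H.equi' u hB l hB']
      by_cases hl : a l u ∈ D'
      · rw [dev_mid (a l u) (H.subB _ hB') hl]
        rw [dev_mem _ ((H.side' _ hB').2 hl), H.right _ hB']
      · rw [dev_out (a l u) (H.subB _ hB') hl]
        exact dev_mid _ (fun h => hl ((H.side' _ hB').1 h)) (H.subA (H.mapsTo' _ hB'))

end Glue

section Ball

variable {L Ω : Type*}

/-- One step neighbourhood of a set. -/
def nb (a : L → Ω → Ω) (D : Set Ω) : Set Ω :=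
  D ∪ ⋃ l, a l '' D

theorem subset_nb (a : L → Ω → Ω) (D : Set Ω) : D ⊆ nb a D := Set.subset_union_left

theorem mem_nb_iff (a : L → Ω → Ω) {D : Set Ω} {v : Ω} :
    v ∈ nb a D ↔ v ∈ D ∨ ∃ l, ∃ u ∈ D, a l u = v := by
  unfold nb
  simp only [Set.mem_union, Set.mem_iUnion, Set.mem_image]

theorem mem_nb_of_mem (a : L → Ω → Ω) {D : Set Ω} {v : Ω} (h : v ∈ D) (l : L) :
    a l v ∈ nb a D := by
  rw [mem_nb_iff]
  exact Or.inr ⟨l, v, h, rfl⟩

theorem nb_mono (a : L → Ω → Ω) {D E : Set Ω} (h : D ⊆ E) : nb a D ⊆ nb a E := by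
  intro x hx
  rw [mem_nb_iff] at hx ⊢
  rcases hx with hx | ⟨l, u, hu, rfl⟩
  · exact Or.inl (h hx)
  · exact Or.inr ⟨l, u, h hu, rfl⟩

/-- Ball of radius `m` around a set. -/
def ball (a : L → Ω → Ω) (D : Set Ω) : ℕ → Set Ω
  | 0 => D
  | m + 1 => nb a (ball a D m)

theorem ball_mono_radius (a : L → Ω → Ω) (D : Set Ω) {m n : ℕ} (h : m ≤ n) :
    ball a D m ⊆ ball a D n := by
  induction h with
  | refl => exact subset_rfl
  | step _ ih => exact ih.trans (subset_nb a _)

theorem ball_mono (a : L → Ω → Ω) {D E : Set Ω} (h : D ⊆ E) (m : ℕ) :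
    ball a D m ⊆ ball a E m := by
  induction m with
  | zero => exact h
  | succ m ih => exact nb_mono a ih

theorem subset_ball (a : L → Ω → Ω) (D : Set Ω) (m : ℕ) : D ⊆ ball a D m :=
  ball_mono_radius a D (Nat.zero_le m)

theorem ball_ball (a : L → Ω → Ω) (D : Set Ω) (m n : ℕ) :
    ball a (ball a D m) n = ball a D (m + n) := by
  induction n with
  | zero => rfl
  | succ n ih =>
    change nb a (ball a (ball a D m) n) = nb a (ball a D (m + n))
    rw [ih]

theorem encard_nb_le [Fintype L] (a : L → Ω → Ω) (D : Set Ω) :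
    (nb a D).encard ≤ (Fintype.card L + 1 : ℕ) * D.encard := by
  classical
  by_cases hD : D.Finite
  · obtain ⟨E, rfl⟩ := hD.exists_finset_coe
    have : nb a (↑E) = ↑(E ∪ (Finset.univ.biUnion fun l => E.image (a l))) := by
      unfold nb; simp only [Finset.coe_union, Finset.coe_biUnion, Finset.coe_univ, Set.mem_univ, Finset.coe_image, Set.iUnion_true]
    rw [this, Set.encard_coe_eq_coe_finsetCard, Set.encard_coe_eq_coe_finsetCard]
    rw [← Nat.cast_mul, Nat.cast_le]
    calc _ ≤ E.card + (Finset.univ.biUnion fun l => E.image (a l)).card := Finset.card_union_le _ _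
      _ ≤ E.card + Fintype.card L * E.card := by
          gcongr
          calc _ ≤ ∑ l : L, (E.image (a l)).card := Finset.card_biUnion_le
            _ ≤ ∑ _l : L, E.card := Finset.sum_le_sum fun l _ => Finset.card_image_le
            _ = _ := by simp only [Finset.sum_const, Finset.card_univ, smul_eq_mul]
      _ = _ := by ring
  · have hD' : D.Infinite := hD
    rw [hD'.encard_eq, ENat.mul_top (by simp only [Nat.cast_add, Nat.cast_one, ne_eq, add_eq_zero, Nat.cast_eq_zero, one_ne_zero, and_false, not_false_eq_true])]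
    exact le_top

theorem encard_ball_le [Fintype L] (a : L → Ω → Ω) (D : Set Ω) (m : ℕ) :
    (ball a D m).encard ≤ ((Fintype.card L + 1) ^ m : ℕ) * D.encard := by
  induction m with
  | zero => simp only [ball, pow_zero, Nat.cast_one, one_mul, Std.le_refl]
  | succ m ih =>
    calc _ ≤ (Fintype.card L + 1 : ℕ) * (ball a D m).encard := encard_nb_le a _
      _ ≤ (Fintype.card L + 1 : ℕ) * (((Fintype.card L + 1) ^ m : ℕ) * D.encard) := by gcongr
      _ = _ := by rw [← mul_assoc, ← Nat.cast_mul, pow_succ']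

/-- Inner boundary. -/
def bd (a : L → Ω → Ω) (D : Set Ω) : Set Ω :=
  {v | v ∈ D ∧ ∃ l, a l v ∉ D}

theorem mem_bd (a : L → Ω → Ω) {D : Set Ω} {v : Ω} :
    v ∈ bd a D ↔ v ∈ D ∧ ∃ l, a l v ∉ D := Iff.rfl

theorem bd_subset (a : L → Ω → Ω) (D : Set Ω) : bd a D ⊆ D := fun _ h => h.1

variable {a : L → Ω → Ω} {ι : L → L}

theorem cross_in (hι : ∀ l v, a (ι l) (a l v) = v) {D : Set Ω} {v : Ω} (hv : v ∉ D)
    (w : List L) (hw : wact a w v ∈ D) : wact a w v ∈ ball a (bd a D) w.length := by
  induction w with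
  | nil => exact absurd hw hv
  | cons l w ih =>
    by_cases h : wact a w v ∈ D
    · exact mem_nb_of_mem a (ih h) l
    · have : wact a (l :: w) v ∈ bd a D := by
        rw [mem_bd]
        refine ⟨hw, ι l, ?_⟩
        change a (ι l) (a l (wact a w v)) ∉ D
        rw [hι]; exact h
      exact ball_mono_radius a _ (Nat.zero_le _) this

theorem cross_out {D : Set Ω} {v : Ω} (hv : v ∈ D)
    (w : List L) (hw : wact a w v ∉ D) : wact a w v ∈ ball a (bd a D) w.length := by
  induction w with
  | nil => exact absurd hv hw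
  | cons l w ih =>
    by_cases h : wact a w v ∈ D
    · have : wact a w v ∈ bd a D := by
        rw [mem_bd]
        exact ⟨h, l, hw⟩
      exact mem_nb_of_mem a (ball_mono_radius a _ (Nat.zero_le _) this) l
    · exact mem_nb_of_mem a (ih h) l

theorem ball_symm (hι : ∀ l v, a (ι l) (a l v) = v) (S D : Set Ω) (m : ℕ) {x : Ω}
    (hx : x ∈ ball a S m) (hD : x ∈ D) : ∃ p ∈ S, p ∈ ball a D m := by
  induction m generalizing x D with
  | zero => exact ⟨x, hx, hD⟩
  | succ m ih =>
    change x ∈ nb a (ball a S m) at hx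
    rw [mem_nb_iff] at hx
    rcases hx with hx | ⟨l, y, hy, rfl⟩
    · obtain ⟨p, hp, hp'⟩ := ih D hx hD
      exact ⟨p, hp, ball_mono_radius a _ (Nat.le_succ m) hp'⟩
    · have h1 : y ∈ nb a D := by
        have := mem_nb_of_mem a hD (ι l)
        rwa [hι] at this
      obtain ⟨p, hp, hp'⟩ := ih (nb a D) hy h1
      refine ⟨p, hp, ?_⟩
      have := ball_ball a D 1 m
      change ball a (nb a D) m = _ at this
      rw [this, Nat.add_comm] at hp'
      exact hp'

theorem ball_bd_disjoint (hι : ∀ l v, a (ι l) (a l v) = v) {D D' : Set Ω} {m : ℕ}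
    (h : ball a D (m + 1) ⊆ D') {x : Ω} (hx : x ∈ ball a (bd a D') m) : x ∉ D := by
  intro hD
  obtain ⟨p, hp, hp'⟩ := ball_symm hι _ D m hx hD
  rw [mem_bd] at hp
  obtain ⟨-, l, hl⟩ := hp
  exact hl (h (mem_nb_of_mem a hp' l))

end Ball

section Core

variable {L Ω : Type*} {a : L → Ω → Ω} {ι : L → L}

/-- On the glued set, words of length at most `m` act through the developing map. -/
theorem wact_dev (hι : ∀ l v, a (ι l) (a l v) = v) {D D' : Set Ω} {m : ℕ}
    {θ θ' : Ω → Ω} (H : GlueData a D D' (ball a (bd a D) m) (ball a (bd a D') m) θ θ')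
    {v : Ω} (hv : v ∈ D') (hv' : v ∉ D) (w : List L) (hw : w.length ≤ m) :
    wact (fun l x => dev D D' θ θ' (a l x)) w v = dev D D' θ θ' (wact a w v) := by
  induction w with
  | nil => exact (dev_mid v hv' hv).symm
  | cons l w ih =>
    have hw' : w.length < m := by simpa using hw
    change dev _ _ θ θ' (a l (wact _ w v)) = dev _ _ θ θ' (a l (wact a w v))
    rw [ih hw'.le]
    apply dev_step H
    · intro h
      have h1 := cross_in hι hv' w h
      exact ⟨ball_mono_radius a _ hw'.le h1, ball_mono_radius a _ hw' (mem_nb_of_mem a h1 l)⟩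
    · intro h
      have h1 := cross_out hv w h
      exact ⟨ball_mono_radius a _ hw'.le h1, ball_mono_radius a _ hw' (mem_nb_of_mem a h1 l)⟩

theorem dev_step_mem (hι : ∀ l v, a (ι l) (a l v) = v) {D D' : Set Ω} {m : ℕ}
    (hm : 1 ≤ m) {θ θ' : Ω → Ω}
    (H : GlueData a D D' (ball a (bd a D) m) (ball a (bd a D') m) θ θ')
    {v : Ω} (hv : v ∈ D') (hv' : v ∉ D) (l : L) :
    dev D D' θ θ' (a l v) ∈ D' ∧ dev D D' θ θ' (a l v) ∉ D := by
  by_cases h : a l v ∈ D
  · have h1 := cross_in hι hv' [l] h
    have h2 : a l v ∈ ball a (bd a D) m := ball_mono_radius a _ hm h1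
    rw [dev_mem _ h]
    exact ⟨(H.side _ h2).1 h, H.subB _ (H.mapsTo _ h2)⟩
  · by_cases h' : a l v ∈ D'
    · rw [dev_mid _ h h']; exact ⟨h', h⟩
    · have h1 := cross_out hv [l] h'
      have h2 : a l v ∈ ball a (bd a D') m := ball_mono_radius a _ hm h1
      rw [dev_out _ h h']
      exact ⟨H.subA (H.mapsTo' _ h2), fun hh => h' ((H.side' _ h2).1 hh)⟩

end Core

end Vale.Agent.P196.B
end
end

section

section

namespace Vale.Agent.P196.B

open Function

section FG

variable {α Ω : Type*}

/-- The permutation attached to a letter. -/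
def lp (σ : α → Equiv.Perm Ω) (l : α × Bool) : Equiv.Perm Ω :=
  cond l.2 (σ l.1) (σ l.1)⁻¹

/-- Action of a letter. -/
def la (σ : α → Equiv.Perm Ω) (l : α × Bool) (v : Ω) : Ω := lp σ l v

/-- Inverse letter. -/
def li (l : α × Bool) : α × Bool := (l.1, !l.2)

theorem la_li (σ : α → Equiv.Perm Ω) (l : α × Bool) (v : Ω) : la σ (li l) (la σ l v) = v := by
  obtain ⟨i, b⟩ := l
  cases b <;> simp [la, lp, li]

theorem lift_mk_apply (σ : α → Equiv.Perm Ω) (w : List (α × Bool)) (v : Ω) :
    FreeGroup.lift σ (FreeGroup.mk w) v = wact (la σ) w v := by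
  rw [FreeGroup.lift_mk]
  induction w with
  | nil => rfl
  | cons l w ih =>
    rw [List.map_cons, List.prod_cons, Equiv.Perm.mul_apply, ih]
    rfl

end FG

section GlueAction

variable {α Ω : Type*} {σ : α → Equiv.Perm Ω}
  {D D' : Set Ω} {m : ℕ} {θ θ' : Ω → Ω}

/-- The glued letter map on the finite piece `D' \ D`. -/
noncomputable def gmap (hm : 1 ≤ m)
    (H : GlueData (la σ) D D' (ball (la σ) (bd (la σ) D) m)
      (ball (la σ) (bd (la σ) D') m) θ θ') (l : α × Bool)
    (v : {v : Ω // v ∈ D' ∧ v ∉ D}) : {v : Ω // v ∈ D' ∧ v ∉ D} :=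
  ⟨dev D D' θ θ' (la σ l v.1), dev_step_mem (la_li σ) hm H v.2.1 v.2.2 l⟩

theorem wact_gmap (hm : 1 ≤ m)
    (H : GlueData (la σ) D D' (ball (la σ) (bd (la σ) D) m)
      (ball (la σ) (bd (la σ) D') m) θ θ') (w : List (α × Bool))
    (v : {v : Ω // v ∈ D' ∧ v ∉ D}) :
    (wact (gmap hm H) w v).1 = wact (fun l x => dev D D' θ θ' (la σ l x)) w v.1 := by
  induction w with
  | nil => rfl
  | cons l w ih =>
    change dev D D' θ θ' (la σ l (wact (gmap hm H) w v).1) = _
    rw [ih]
    rfl

theorem wact_gmap_dev (hm : 1 ≤ m)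
    (H : GlueData (la σ) D D' (ball (la σ) (bd (la σ) D) m)
      (ball (la σ) (bd (la σ) D') m) θ θ') (w : List (α × Bool)) (hw : w.length ≤ m)
    (v : {v : Ω // v ∈ D' ∧ v ∉ D}) :
    (wact (gmap hm H) w v).1 = dev D D' θ θ' (wact (la σ) w v.1) := by
  rw [wact_gmap]
  exact wact_dev (la_li σ) H v.2.1 v.2.2 w hw

theorem wact_gmap_trivial (hm : 1 ≤ m)
    (H : GlueData (la σ) D D' (ball (la σ) (bd (la σ) D) m)
      (ball (la σ) (bd (la σ) D') m) θ θ') (w : List (α × Bool)) (hw : w.length ≤ m)
    (v : {v : Ω // v ∈ D' ∧ v ∉ D}) (hv : wact (la σ) w v.1 = v.1) :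
    wact (gmap hm H) w v = v := by
  apply Subtype.ext
  rw [wact_gmap_dev hm H w hw, hv]
  exact dev_mid _ v.2.2 v.2.1

/-- The glued permutation attached to a generator. -/
noncomputable def gperm (hm : 2 ≤ m)
    (H : GlueData (la σ) D D' (ball (la σ) (bd (la σ) D) m)
      (ball (la σ) (bd (la σ) D') m) θ θ') (i : α) :
    Equiv.Perm {v : Ω // v ∈ D' ∧ v ∉ D} where
  toFun := gmap (one_le_two.trans hm) H (i, true)
  invFun := gmap (one_le_two.trans hm) H (i, false)
  left_inv v := wact_gmap_trivial (one_le_two.trans hm) H [(i, false), (i, true)] hm v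
    (la_li σ (i, true) v.1)
  right_inv v := wact_gmap_trivial (one_le_two.trans hm) H [(i, true), (i, false)] hm v
    (la_li σ (i, false) v.1)

theorem la_gperm (hm : 2 ≤ m)
    (H : GlueData (la σ) D D' (ball (la σ) (bd (la σ) D) m)
      (ball (la σ) (bd (la σ) D') m) θ θ') :
    la (gperm hm H) = gmap (one_le_two.trans hm) H := by
  funext l v
  obtain ⟨i, b⟩ := l
  cases b <;> rfl

theorem lift_gperm_eq_one (hm : 2 ≤ m)
    (H : GlueData (la σ) D D' (ball (la σ) (bd (la σ) D) m)
      (ball (la σ) (bd (la σ) D') m) θ θ') (w : List (α × Bool)) (hw : w.length ≤ m)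
    (h1 : FreeGroup.lift σ (FreeGroup.mk w) = 1) :
    FreeGroup.lift (gperm hm H) (FreeGroup.mk w) = 1 := by
  ext1 v
  rw [lift_mk_apply, la_gperm, Equiv.Perm.one_apply]
  apply wact_gmap_trivial _ H w hw
  rw [← lift_mk_apply, h1, Equiv.Perm.one_apply]

end GlueAction

section Simple

/-- A group without proper normal subgroups of finite index has no non-trivial homomorphism to a
finite group. -/
theorem hom_finite_eq_one {G H : Type*} [Group G] [Group H]
    (hq : ∀ N : Subgroup G, N.Normal → N.FiniteIndex → N = ⊤)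
    [Finite H] (f : G →* H) : f = 1 := by
  apply MonoidHom.ker_eq_top_iff.mp
  apply hq f.ker inferInstance
  infer_instance

/-- An infinite simple group has no proper normal subgroup of finite index. -/
theorem simple_no_quotient {G : Type*} [Group G] [Infinite G] [IsSimpleGroup G]
    (N : Subgroup G) (hN : N.Normal) (hfi : N.FiniteIndex) : N = ⊤ := by
  rcases IsSimpleGroup.eq_bot_or_eq_top_of_normal N hN with h | h
  · exfalso
    subst h
    have : Finite (G ⧸ (⊥ : Subgroup G)) := Subgroup.finite_quotient_of_finiteIndex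
    have : Finite G := Finite.of_equiv _ (QuotientGroup.quotientBot (G := G)).toEquiv
    exact not_finite G
  · exact h

end Simple

section Main

variable {G : Type*} [Group G] {n : ℕ} {φ : FreeGroup (Fin n) →* G}
  {R : Set (FreeGroup (Fin n))} {Ω : Type*} [MulAction G Ω]

/-- The generators as permutations. -/
def gens (φ : FreeGroup (Fin n) →* G) (Ω : Type*) [MulAction G Ω] (i : Fin n) :
    Equiv.Perm Ω := MulAction.toPerm (φ (FreeGroup.of i))

theorem lift_gens (w : FreeGroup (Fin n)) (v : Ω) :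
    FreeGroup.lift (gens φ Ω) w v = φ w • v := by
  have : FreeGroup.lift (gens φ Ω) = (MulAction.toPermHom G Ω).comp φ := by
    apply FreeGroup.ext_hom
    intro i
    simp only [FreeGroup.lift_apply_of, gens, MonoidHom.coe_comp, comp_apply, MulAction.toPermHom_apply]
  rw [this]; rfl

/-- If a gluing exists, then a finitely presented group without finite quotients acts trivially on
the interior of the glued piece. -/
theorem glue_fixed (hq : ∀ N : Subgroup G, N.Normal → N.FiniteIndex → N = ⊤)
    (hφ : Surjective φ)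
    (hR : Subgroup.normalClosure R = φ.ker) {m : ℕ} (hm : 2 ≤ m)
    (hRm : ∀ r ∈ R, r.toWord.length ≤ m) {D D' : Set Ω} (hfin : (D' \ D).Finite) {θ θ' : Ω → Ω}
    (H : GlueData (la (gens φ Ω)) D D' (ball (la (gens φ Ω)) (bd (la (gens φ Ω)) D) m)
      (ball (la (gens φ Ω)) (bd (la (gens φ Ω)) D') m) θ θ')
    {v : Ω} (hv : v ∈ D' ∧ v ∉ D) (i : Fin n)
    (hi : φ (FreeGroup.of i) • v ∈ D' ∧ φ (FreeGroup.of i) • v ∉ D) :
    φ (FreeGroup.of i) • v = v := by
  set F := FreeGroup.lift (gperm hm H) with hF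
  have hker : φ.ker ≤ F.ker := by
    rw [← hR]
    apply Subgroup.normalClosure_le_normal
    intro r hr
    change F r = 1
    have : r = FreeGroup.mk r.toWord := FreeGroup.mk_toWord.symm
    rw [this]
    apply lift_gperm_eq_one hm H _ (hRm r hr)
    rw [← this]
    ext1 x
    rw [lift_gens]
    have hr1 : φ r = 1 := by
      have : r ∈ φ.ker := by rw [← hR]; exact Subgroup.subset_normalClosure hr
      exact this
    rw [hr1, one_smul, Equiv.Perm.one_apply]
  let f : G →* Equiv.Perm {v : Ω // v ∈ D' ∧ v ∉ D} :=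
    φ.liftOfSurjective hφ ⟨F, hker⟩
  have hf : ∀ x, f (φ x) = F x := fun x => by
    have := MonoidHom.liftOfRightInverse_comp_apply φ (Function.surjInv hφ)
      (Function.rightInverse_surjInv hφ) ⟨F, hker⟩ x
    exact this
  have hfin : Finite (Equiv.Perm {v : Ω // v ∈ D' ∧ v ∉ D}) := by
    have : Finite {v : Ω // v ∈ D' ∧ v ∉ D} := hfin
    infer_instance
  have h1 : f = 1 := hom_finite_eq_one hq f
  have h2 : F (FreeGroup.of i) = 1 := by rw [← hf, h1]; rfl
  have h3 : F (FreeGroup.of i) = gperm hm H i := by rw [hF, FreeGroup.lift_apply_of]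
  have h4 : (gperm hm H i ⟨v, hv⟩).1 = v := by rw [← h3, h2]; rfl
  have h5 : (gperm hm H i ⟨v, hv⟩).1 = dev D D' θ θ' (φ (FreeGroup.of i) • v) := rfl
  rw [h5, dev_mid _ hi.2 hi.1] at h4
  exact h4

end Main

end Vale.Agent.P196.B
end
end

section

section

namespace Vale.Agent.P196.B

open Function

section Pigeon

variable {L Ω : Type*}

theorem exists_label (A : Set Ω) (K : ℕ) (hK : A.encard ≤ K) :
    ∃ e : Ω → Fin (K + 1), Set.InjOn e A := by
  classical
  have hfin : A.Finite := Set.finite_of_encard_le_coe hK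
  obtain ⟨A, rfl⟩ := hfin.exists_finset_coe
  rw [Set.encard_coe_eq_coe_finsetCard, Nat.cast_le] at hK
  refine ⟨fun u => if h : u ∈ A then Fin.castLE (by omega) (A.equivFin ⟨u, h⟩) else 0, ?_⟩
  intro u hu v hv huv
  have hu' : u ∈ A := hu
  have hv' : v ∈ A := hv
  simp only [hu', hv', dif_pos] at huv
  have := Fin.castLE_injective _ huv
  have := A.equivFin.injective this
  exact congrArg Subtype.val this

/-- The code of a labelled marked action restricted to a set. -/
def code {K : ℕ} (a : L → Ω → Ω) (A D : Set Ω) (e : Ω → Fin K) :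
    (Fin K → Prop) × (Fin K → Prop) × (L → Fin K → Fin K → Prop) :=
  (fun x => ∃ u ∈ A, e u = x, fun x => ∃ u ∈ A, e u = x ∧ u ∈ D,
    fun l x y => ∃ u ∈ A, e u = x ∧ a l u ∈ A ∧ e (a l u) = y)

theorem locIso_of_code {K : ℕ} (a : L → Ω → Ω) (A D B E : Set Ω) (e f : Ω → Fin K)
    (he : Set.InjOn e A) (hf : Set.InjOn f B) (h : code a A D e = code a B E f) :
    ∃ θ θ', LocIso a A D B E θ θ' := by
  classical
  simp only [code, Prod.mk.injEq] at h
  obtain ⟨h1, h2, h3⟩ := h
  have key : ∀ u ∈ A, ∃ v ∈ B, f v = e u := fun u hu => by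
    have : (fun x => ∃ u ∈ A, e u = x) (e u) := ⟨u, hu, rfl⟩
    rw [h1] at this; exact this
  have key' : ∀ v ∈ B, ∃ u ∈ A, e u = f v := fun v hv => by
    have : (fun x => ∃ u ∈ B, f u = x) (f v) := ⟨v, hv, rfl⟩
    rw [← h1] at this; exact this
  let θ : Ω → Ω := fun u => if hu : u ∈ A then (key u hu).choose else u
  let θ' : Ω → Ω := fun v => if hv : v ∈ B then (key' v hv).choose else v
  have hθ : ∀ u ∈ A, θ u ∈ B ∧ f (θ u) = e u := fun u hu => by
    simp only [θ, dif_pos hu]
    exact (key u hu).choose_spec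
  have hθ' : ∀ v ∈ B, θ' v ∈ A ∧ e (θ' v) = f v := fun v hv => by
    simp only [θ', dif_pos hv]
    exact (key' v hv).choose_spec
  refine ⟨θ, θ', ?_, ?_, ?_, ?_, ?_, ?_, ?_⟩
  · exact fun u hu => (hθ u hu).1
  · exact fun u hu => (hθ' u hu).1
  · intro u hu
    apply he (hθ' _ (hθ u hu).1).1 hu
    rw [(hθ' _ (hθ u hu).1).2, (hθ u hu).2]
  · intro u hu
    apply hf (hθ _ (hθ' u hu).1).1 hu
    rw [(hθ _ (hθ' u hu).1).2, (hθ' u hu).2]
  · intro u hu l hl
    have : (fun l x y => ∃ u ∈ A, e u = x ∧ a l u ∈ A ∧ e (a l u) = y) l (e u) (e (a l u)) :=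
      ⟨u, hu, rfl, hl, rfl⟩
    rw [h3] at this
    obtain ⟨v, hv, hv1, hv2, hv3⟩ := this
    have hvu : v = θ u := hf hv (hθ u hu).1 (by rw [hv1, (hθ u hu).2])
    subst hvu
    apply hf (hθ _ hl).1 hv2
    rw [(hθ _ hl).2, hv3]
  · intro u hu l hl
    have : (fun l x y => ∃ u ∈ B, f u = x ∧ a l u ∈ B ∧ f (a l u) = y) l (f u) (f (a l u)) :=
      ⟨u, hu, rfl, hl, rfl⟩
    rw [← h3] at this
    obtain ⟨v, hv, hv1, hv2, hv3⟩ := this
    have hvu : v = θ' u := he hv (hθ' u hu).1 (by rw [hv1, (hθ' u hu).2])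
    subst hvu
    apply he (hθ' _ hl).1 hv2
    rw [(hθ' _ hl).2, hv3]
  · intro u hu
    constructor
    · intro hD
      have : (fun x => ∃ u ∈ A, e u = x ∧ u ∈ D) (e u) := ⟨u, hu, rfl, hD⟩
      rw [h2] at this
      obtain ⟨v, hv, hv1, hv2⟩ := this
      have hvu : v = θ u := hf hv (hθ u hu).1 (by rw [hv1, (hθ u hu).2])
      rw [← hvu]; exact hv2
    · intro hE
      have : (fun x => ∃ u ∈ B, f u = x ∧ u ∈ E) (f (θ u)) := ⟨θ u, (hθ u hu).1, rfl, hE⟩
      rw [← h2] at this
      obtain ⟨v, hv, hv1, hv2⟩ := this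
      have hvu : v = u := he hv hu (by rw [hv1, (hθ u hu).2])
      rw [← hvu]; exact hv2

theorem exists_lt_map_eq (C : Type*) [Finite C] :
    ∃ N : ℕ, ∀ c : ℕ → C, ∃ i j, i < j ∧ j ≤ N ∧ c i = c j := by
  refine ⟨Nat.card C, fun c => ?_⟩
  have : Fintype C := Fintype.ofFinite C
  obtain ⟨i, j, hij, h⟩ := Fintype.exists_ne_map_eq_of_card_lt
    (fun i : Fin (Nat.card C + 1) => c i) (by simp only [Nat.card_eq_fintype_card, Fintype.card_fin, lt_add_iff_pos_right, Order.lt_one_iff])
  rcases lt_or_gt_of_ne hij with hlt | hgt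
  · exact ⟨i, j, hlt, Nat.lt_succ_iff.mp j.2, h⟩
  · exact ⟨j, i, hgt, Nat.lt_succ_iff.mp i.2, h.symm⟩

/-- A long enough chain with small boundaries contains two sets that can be glued. -/
theorem exists_glueData (L : Type*) [Fintype L] (k m : ℕ) :
    ∃ N : ℕ, ∀ (Ω : Type*) (a : L → Ω → Ω) (ι : L → L) (_ : ∀ l v, a (ι l) (a l v) = v)
      (D : ℕ → Set Ω) (_ : ∀ i < N, ball a (D i) (m + 1) ⊆ D (i + 1))
      (_ : ∀ i ≤ N, (bd a (D i)).encard ≤ k),
      ∃ i j, i < j ∧ j ≤ N ∧ ball a (D i) (m + 1) ⊆ D j ∧ ∃ θ θ',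
        GlueData a (D i) (D j) (ball a (bd a (D i)) m) (ball a (bd a (D j)) m) θ θ' := by
  set K := (Fintype.card L + 1) ^ m * k with hK
  obtain ⟨N, hN⟩ := exists_lt_map_eq
    ((Fin (K + 1) → Prop) × (Fin (K + 1) → Prop) × (L → Fin (K + 1) → Fin (K + 1) → Prop))
  refine ⟨N, fun Ω a ι hι D hD hb => ?_⟩
  have hcard : ∀ i ≤ N, (ball a (bd a (D i)) m).encard ≤ K := fun i hi => by
    calc _ ≤ ((Fintype.card L + 1) ^ m : ℕ) * (bd a (D i)).encard := encard_ball_le a _ m
      _ ≤ ((Fintype.card L + 1) ^ m : ℕ) * (k : ℕ∞) := by gcongr; exact hb i hi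
      _ = _ := by rw [hK, Nat.cast_mul]
  have hlab : ∀ i, ∃ e : Ω → Fin (K + 1), i ≤ N → Set.InjOn e (ball a (bd a (D i)) m) := by
    intro i
    by_cases hi : i ≤ N
    · obtain ⟨e, he⟩ := exists_label _ K (hcard i hi)
      exact ⟨e, fun _ => he⟩
    · exact ⟨fun _ => 0, fun h => absurd h hi⟩
  choose e he using hlab
  obtain ⟨i, j, hij, hjN, hc⟩ := hN (fun i => code a (ball a (bd a (D i)) m) (D i) (e i))
  obtain ⟨θ, θ', h⟩ := locIso_of_code a _ _ _ _ _ _ (he i (hij.le.trans hjN)) (he j hjN) hc
  have hmono : ∀ i < N, D i ⊆ D (i + 1) := fun i hi => (subset_ball a _ _).trans (hD i hi)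
  have hmono' : ∀ i j, i ≤ j → j ≤ N → D i ⊆ D j := by
    intro i j hij
    induction hij with
    | refl => exact fun _ => subset_rfl
    | step _ ih => exact fun hj => (ih (by omega)).trans (hmono _ (by omega))
  have hlt : ball a (D i) (m + 1) ⊆ D j :=
    (hD i (by omega)).trans (hmono' _ _ hij hjN)
  refine ⟨i, j, hij, hjN, hlt, θ, θ', ?_⟩
  exact
    { toLocIso := h
      sub := hmono' i j hij.le hjN
      subA := ((ball_mono a (bd_subset a (D i)) m).trans
        (ball_mono_radius a _ (Nat.le_succ m))).trans hlt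
      subB := fun u hu => ball_bd_disjoint hι hlt hu }

end Pigeon

section Main

variable {G : Type*} [Group G]

/-- **Slab theorem.** A finitely presented group without finite quotients cannot act transitively
with a long chain of sets with uniformly small boundaries and finite slabs between them. -/
theorem slab_false (hq : ∀ N : Subgroup G, N.Normal → N.FiniteIndex → N = ⊤)
    {n : ℕ} {φ : FreeGroup (Fin n) →* G}
    {R : Set (FreeGroup (Fin n))} (hfin : R.Finite) (hφ : Surjective φ)
    (hR : Subgroup.normalClosure R = φ.ker) (k : ℕ) :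
    ∃ N m : ℕ, ∀ (Ω : Type*) [MulAction G Ω] [MulAction.IsPretransitive G Ω]
      (D : ℕ → Set Ω), (D 0).Nonempty → D N ≠ Set.univ →
      (∀ i < N, ball (la (gens φ Ω)) (D i) m ⊆ D (i + 1)) →
      (∀ i ≤ N, (bd (la (gens φ Ω)) (D i)).encard ≤ k) →
      (D N \ D 0).Finite → False := by
  obtain ⟨m, hm, hRm⟩ : ∃ m, 2 ≤ m ∧ ∀ r ∈ R, r.toWord.length ≤ m := by
    obtain ⟨M, hM⟩ := (hfin.image fun r => r.toWord.length).bddAbove
    refine ⟨max 2 M, le_max_left _ _, fun r hr => (hM ⟨r, hr, rfl⟩).trans (le_max_right _ _)⟩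
  obtain ⟨N, hN⟩ := exists_glueData (Fin n × Bool) k m
  refine ⟨N, m + 1, fun Ω _ _ D h0 hNe hball hbd hslab => ?_⟩
  set a := la (gens φ Ω) with ha
  have hgen : ∀ (S : Set Ω), (∀ v ∈ S, ∀ l, a l v ∈ S) → S.Nonempty → S = Set.univ := by
    intro S hS ⟨v₀, hv₀⟩
    have : ∀ w : List (Fin n × Bool), wact a w v₀ ∈ S := by
      intro w
      induction w with
      | nil => exact hv₀
      | cons l w ih => exact hS _ ih l
    ext v
    simp only [Set.mem_univ, iff_true]
    obtain ⟨g, rfl⟩ := MulAction.exists_smul_eq G v₀ v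
    obtain ⟨x, rfl⟩ := hφ g
    have h2 := this x.toWord
    rw [ha, ← lift_mk_apply, FreeGroup.mk_toWord, lift_gens] at h2
    exact h2
  have hι : ∀ l v, a (li l) (a l v) = v := la_li _
  obtain ⟨i, j, hij, hjN, hDD', θ, θ', HG⟩ := hN Ω a li hι D hball hbd
  have hmono : ∀ i < N, D i ⊆ D (i + 1) := fun i hi => (subset_ball a _ _).trans (hball i hi)
  have hmono' : ∀ i j, i ≤ j → j ≤ N → D i ⊆ D j := by
    intro i j hij
    induction hij with
    | refl => exact fun _ => subset_rfl
    | step _ ih => exact fun hj => (ih (by omega)).trans (hmono _ (by omega))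
  have hne : (D i).Nonempty := h0.mono (hmono' 0 i (Nat.zero_le _) (by omega))
  have hne' : D j ≠ Set.univ := fun h => hNe (Set.eq_univ_of_univ_subset
    (h ▸ hmono' j N hjN le_rfl))
  have hne'' : nb a (D i) ≠ Set.univ := fun h => hne' (Set.eq_univ_of_univ_subset
    (h ▸ (ball_mono_radius a (D i) (show 1 ≤ m + 1 by omega)).trans hDD'))
  -- there is a point at distance exactly two from `D i`
  obtain ⟨u, hu, hu'⟩ : ∃ u ∈ nb a (nb a (D i)), u ∉ nb a (D i) := by
    by_contra hc
    push Not at hc
    apply hne''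
    apply hgen _ _ (hne.mono (subset_nb a _))
    intro v hv l
    exact hc _ (mem_nb_of_mem a hv l)
  have huD : u ∉ D i := fun h => hu' (subset_nb a _ h)
  have huD' : u ∈ D j := hDD' (ball_mono_radius a _ (show 2 ≤ m + 1 by omega) hu)
  have hnb : ∀ l, a l u ∈ D j ∧ a l u ∉ D i := by
    intro l
    refine ⟨hDD' (ball_mono_radius a _ (show 3 ≤ m + 1 by omega) (mem_nb_of_mem a hu l)), ?_⟩
    intro h
    have := mem_nb_of_mem a h (li l)
    rw [hι] at this
    exact hu' this
  have hslab' : (D j \ D i).Finite := hslab.subset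
    (Set.sdiff_subset_sdiff (hmono' j N hjN le_rfl) (hmono' 0 i (Nat.zero_le _) (by omega)))
  have hfix : ∀ i, φ (FreeGroup.of i) • u = u := fun i =>
    glue_fixed hq hφ hR hm hRm hslab' HG ⟨huD', huD⟩ i (hnb (i, true))
  have hfix' : ∀ l, a l u = u := by
    rintro ⟨i, b⟩
    have h1 : a (i, true) u = u := hfix i
    cases b
    · have := hι (i, true) u
      rw [h1] at this
      exact this
    · exact h1
  have : ({u} : Set Ω) = Set.univ := by
    apply hgen _ _ (Set.singleton_nonempty u)
    intro v hv l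
    rw [Set.mem_singleton_iff] at hv
    rw [hv, hfix', Set.mem_singleton_iff]
  obtain ⟨x, hx⟩ := hne
  have hxu : x ∈ ({u} : Set Ω) := this ▸ Set.mem_univ x
  rw [Set.mem_singleton_iff] at hxu
  exact huD (hxu ▸ hx)

end Main

end Vale.Agent.P196.B
end
end

section

section

namespace Vale.Agent.P196

open Function

section Folner

variable {G : Type*} [Group G] {n : ℕ} {X : Type*} [MulAction G X]

/-- A finite set stable under all letters contains the orbits of its points. -/
theorem smul_mem_of_stable (φ : FreeGroup (Fin n) →* G) (hφ : Surjective φ) (F : Set X)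
    (hF : ∀ x ∈ F, ∀ l, ltr (fun k => φ (FreeGroup.of k)) l • x ∈ F) (x : X) (hx : x ∈ F)
    (g : G) : g • x ∈ F := by
  obtain ⟨u, rfl⟩ := hφ g
  rw [← FreeGroup.mk_toWord (x := u), map_mk_eq_ev]
  generalize u.toWord = w
  induction w with
  | nil => simpa using hx
  | cons l w ih =>
    rw [ev_cons, mul_smul]
    exact hF _ ih l

open Classical in
/-- Multiplicity function of `D • x₀`. -/
noncomputable def mult (D : Finset G) (x₀ y : X) : ℕ := (D.filter (fun d => d • x₀ = y)).card

theorem mult_le_card (D : Finset G) (x₀ y : X) : mult D x₀ y ≤ D.card := by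
  classical
  exact Finset.card_filter_le _ _

theorem mult_sub_le [DecidableEq G] [DecidableEq X] (D : Finset G) (x₀ y : X) (g : G) :
    mult D x₀ y - mult D x₀ (g • y) ≤
      ((D.filter (fun d => g * d ∉ D)).filter (fun d => d • x₀ = y)).card := by
  classical
  have h1 : mult D x₀ y ≤ (D.filter (fun d => g * d ∈ D ∧ d • x₀ = y)).card +
      ((D.filter (fun d => g * d ∉ D)).filter (fun d => d • x₀ = y)).card := by
    refine le_trans (Finset.card_le_card ?_) (Finset.card_union_le _ _)
    intro d hd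
    simp only [Finset.mem_union, Finset.mem_filter] at hd ⊢
    tauto
  have h2 : (D.filter (fun d => g * d ∈ D ∧ d • x₀ = y)).card ≤ mult D x₀ (g • y) := by
    refine Finset.card_le_card_of_injOn (fun d => g * d) ?_ ?_
    · intro d hd
      simp only [Finset.coe_filter, Set.mem_ofPred_eq] at hd ⊢
      exact ⟨hd.2.1, by rw [mul_smul, hd.2.2]⟩
    · intro a _ b _ hab
      exact mul_left_cancel hab
  omega

theorem exists_folner (ham : IsAmenable G) (s : Fin n → G) (x₀ : X) (C : ℕ) :
    ∃ F : Finset X, (∀ x ∈ F, ∃ g : G, x = g • x₀) ∧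
      ∃ B : Finset X, B ⊆ F ∧ (∀ x ∈ F, x ∉ B → ∀ l, ltr s l • x ∈ F) ∧ C * B.card < F.card := by
  classical
  set Λ := (Finset.univ : Finset (Fin n × Bool)) with hΛ
  set ε : ℝ := 1 / ((C : ℝ) * Λ.card + 1) with hε
  have hpos : (0 : ℝ) < (C : ℝ) * Λ.card + 1 := by positivity
  obtain ⟨D, hDne, hD⟩ := ham (Λ.image (ltr s)) ε (by rw [hε]; positivity)
  set T := D.card with hT
  have hTpos : 0 < T := Finset.card_pos.2 hDne
  set O : Finset X := D.image (fun d => d • x₀) with hO
  let F : ℕ → Finset X := fun t => O.filter (fun y => t < mult D x₀ y)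
  have hmemF : ∀ t y, y ∈ F t ↔ t < mult D x₀ y := by
    intro t y
    simp only [F, Finset.mem_filter]
    refine ⟨fun h => h.2, fun h => ⟨?_, h⟩⟩
    have h1 : 0 < (D.filter (fun d => d • x₀ = y)).card := by
      unfold mult at h; omega
    obtain ⟨d, hd⟩ := Finset.card_pos.1 h1
    rw [Finset.mem_filter] at hd
    rw [hO, Finset.mem_image]
    exact ⟨d, hd.1, hd.2⟩
  let B : ℕ → Finset X := fun t => (F t).filter (fun y => ∃ l, ltr s l • y ∉ F t)
  -- the sizes of the level sets add up to `|D|`
  have hsumF : ∑ t ∈ Finset.range T, (F t).card = T := by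
    have h1 : ∀ t, (F t).card = ∑ y ∈ O, if t < mult D x₀ y then 1 else 0 := by
      intro t
      simp only [F, Finset.card_filter]
    simp only [h1]
    rw [Finset.sum_comm]
    have h2 : ∀ y ∈ O, (∑ t ∈ Finset.range T, if t < mult D x₀ y then 1 else 0) =
        mult D x₀ y := by
      intro y _
      rw [← Finset.card_filter]
      have : (Finset.range T).filter (fun t => t < mult D x₀ y) = Finset.range (mult D x₀ y) := by
        ext t
        have := mult_le_card D x₀ y
        simp only [Finset.mem_filter, Finset.mem_range]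
        omega
      rw [this, Finset.card_range]
    rw [Finset.sum_congr rfl h2]
    unfold mult
    rw [hT]
    exact (Finset.card_eq_sum_card_image (fun d => d • x₀) D).symm
  -- the sizes of the sets of bad points
  have hsumB : ∑ t ∈ Finset.range T, (B t).card ≤
      ∑ l ∈ Λ, (D.filter (fun d => ltr s l * d ∉ D)).card := by
    have h1 : ∀ t, (B t).card ≤ ∑ l ∈ Λ, ∑ y ∈ O,
        if (mult D x₀ (ltr s l • y) ≤ t ∧ t < mult D x₀ y) then 1 else 0 := by
      intro t
      have h2 : B t ⊆ Λ.biUnion (fun l => O.filter (fun y =>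
          mult D x₀ (ltr s l • y) ≤ t ∧ t < mult D x₀ y)) := by
        intro y hy
        simp only [B, Finset.mem_filter] at hy
        obtain ⟨hyF, l, hl⟩ := hy
        rw [Finset.mem_biUnion]
        refine ⟨l, Finset.mem_univ _, ?_⟩
        rw [Finset.mem_filter]
        rw [hmemF] at hl
        refine ⟨?_, by omega, (hmemF t y).1 hyF⟩
        simp only [F, Finset.mem_filter] at hyF
        exact hyF.1
      refine (Finset.card_le_card h2).trans (Finset.card_biUnion_le.trans ?_)
      refine Finset.sum_le_sum fun l _ => ?_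
      rw [Finset.card_filter]
    refine (Finset.sum_le_sum fun t _ => h1 t).trans ?_
    rw [Finset.sum_comm]
    refine Finset.sum_le_sum fun l _ => ?_
    rw [Finset.sum_comm]
    have h3 : ∀ y ∈ O, (∑ t ∈ Finset.range T,
        if (mult D x₀ (ltr s l • y) ≤ t ∧ t < mult D x₀ y) then 1 else 0) ≤
        ((D.filter (fun d => ltr s l * d ∉ D)).filter (fun d => d • x₀ = y)).card := by
      intro y _
      rw [← Finset.card_filter]
      refine le_trans ?_ (mult_sub_le D x₀ y (ltr s l))
      have : (Finset.range T).filter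
          (fun t => mult D x₀ (ltr s l • y) ≤ t ∧ t < mult D x₀ y) ⊆
          Finset.Ico (mult D x₀ (ltr s l • y)) (mult D x₀ y) := by
        intro t ht
        rw [Finset.mem_filter] at ht
        rw [Finset.mem_Ico]
        exact ht.2
      refine (Finset.card_le_card this).trans ?_
      rw [Nat.card_Ico]
    refine (Finset.sum_le_sum h3).trans ?_
    rw [← Finset.card_biUnion]
    · refine Finset.card_le_card ?_
      intro d hd
      rw [Finset.mem_biUnion] at hd
      obtain ⟨y, _, hy⟩ := hd
      rw [Finset.mem_filter] at hy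
      exact hy.1
    · intro a _ b _ hab
      rw [Function.onFun, Finset.disjoint_left]
      intro d hd hd'
      rw [Finset.mem_filter] at hd hd'
      exact hab (hd.2.symm.trans hd'.2)
  have hsumB' : C * ∑ t ∈ Finset.range T, (B t).card < T := by
    have h1 : ∀ l ∈ Λ, ((D.filter (fun d => ltr s l * d ∉ D)).card : ℝ) ≤ ε * D.card := by
      intro l hl
      refine le_trans ?_ (hD (ltr s l) (Finset.mem_image_of_mem _ hl)).le
      have : (D.filter (fun d => ltr s l * d ∉ D)).card ≤
          (symmDiff (D.image (fun x => ltr s l * x)) D).card := by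
        refine Finset.card_le_card_of_injOn (fun d => ltr s l * d) ?_ ?_
        · intro d hd
          simp only [Finset.coe_filter, Set.mem_ofPred_eq] at hd
          rw [Finset.mem_coe, Finset.mem_symmDiff]
          exact Or.inl ⟨Finset.mem_image_of_mem _ hd.1, hd.2⟩
        · intro a _ b _ hab
          exact mul_left_cancel hab
      exact_mod_cast this
    have h2 : ((∑ l ∈ Λ, (D.filter (fun d => ltr s l * d ∉ D)).card : ℕ) : ℝ) ≤
        Λ.card * (ε * D.card) := by
      rw [Nat.cast_sum]
      refine (Finset.sum_le_sum h1).trans ?_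
      rw [Finset.sum_const, nsmul_eq_mul]
    have h3 : ((C * ∑ t ∈ Finset.range T, (B t).card : ℕ) : ℝ) < T := by
      rw [Nat.cast_mul]
      have h4 : ((∑ t ∈ Finset.range T, (B t).card : ℕ) : ℝ) ≤ Λ.card * (ε * D.card) :=
        le_trans (by exact_mod_cast hsumB) h2
      have h5 : (C : ℝ) * ((∑ t ∈ Finset.range T, (B t).card : ℕ) : ℝ) ≤
          C * (Λ.card * (ε * D.card)) := mul_le_mul_of_nonneg_left h4 (by (clear * -; positivity))
      refine lt_of_le_of_lt h5 ?_
      have hT' : (0 : ℝ) < T := by exact_mod_cast hTpos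
      rw [← hT, hε]
      have : (C : ℝ) * (Λ.card * (1 / ((C : ℝ) * Λ.card + 1) * T)) =
          ((C : ℝ) * Λ.card / ((C : ℝ) * Λ.card + 1)) * T := by ring
      rw [this]
      have h6 : (C : ℝ) * Λ.card / ((C : ℝ) * Λ.card + 1) < 1 := by
        rw [div_lt_one hpos]; linarith only []
      nlinarith only [hT', h6]
    exact_mod_cast h3
  have hex : ∃ t ∈ Finset.range T, C * (B t).card < (F t).card := by
    refine Finset.exists_lt_of_sum_lt ?_
    rw [← Finset.mul_sum, hsumF]
    exact hsumB'
  obtain ⟨t, _, ht⟩ := hex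
  refine ⟨F t, ?_, B t, Finset.filter_subset _ _, ?_, ht⟩
  · intro x hx
    simp only [F, Finset.mem_filter, hO, Finset.mem_image] at hx
    obtain ⟨⟨d, _, hd⟩, _⟩ := hx
    exact ⟨d, hd.symm⟩
  · intro x hx hxB l
    by_contra hcon
    apply hxB
    simp only [B, Finset.mem_filter]
    exact ⟨hx, l, hcon⟩

/-- Amenable groups acting on tree-like sets have the slab property. -/
theorem slabProperty_of_list (φ : FreeGroup (Fin n) →* G) (hφ : Surjective φ)
    (ham : IsAmenable G) (x₀ : X) (hinf : (MulAction.orbit G x₀).Infinite)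
    {α : Type*} [Fintype α] [Nonempty α] {L : ℕ} (hL : 0 < L) (p : X → List α) (K : ℕ)
    (hK : ∀ (v : List α) (T : Finset X),
      (∀ x ∈ T, v <:+ p x ∧ (p x).length ≤ v.length + 2 * L) → T.card ≤ K)
    (hNear : ∀ (x : X) (l : Fin n × Bool),
      Near L (p x) (p (ltr (fun k => φ (FreeGroup.of k)) l • x))) :
    SlabProperty (fun k => φ (FreeGroup.of k)) X K := by
  classical
  intro N
  set s : Fin n → G := fun k => φ (FreeGroup.of k) with hs
  obtain ⟨F, hFo, B, hBF, hFB, hlt⟩ := exists_folner ham s x₀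
    (2 * ((N + 1) * (K + Fintype.card (List.Vector α L) *
      Mb K (Fintype.card (List.Vector α L)) N)))
  have hFne : F.Nonempty := Finset.card_pos.1 (by omega)
  have hinf' : ∀ x ∈ F, (MulAction.orbit G x).Infinite := by
    intro x hx
    obtain ⟨g, rfl⟩ := hFo x hx
    rwa [MulAction.orbit_smul]
  have hBne : B.Nonempty := by
    by_contra hB
    rw [Finset.not_nonempty_iff_eq_empty] at hB
    obtain ⟨x, hx⟩ := hFne
    apply hinf' x hx
    refine F.finite_toSet.subset ?_
    rintro _ ⟨g, rfl⟩
    exact smul_mem_of_stable φ hφ (F : Set X)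
      (fun y hy l => hFB y hy (by rw [hB]; simp) l) x hx g
  obtain ⟨u, W, hW, hpop⟩ := exists_good_path F B p K hL hK inferInstance N hBne hlt
  refine slab_of_good_path s F B p K hK hNear hFB u W hW N hpop ?_
  intro x hx
  by_contra hcon
  push Not at hcon
  apply hinf' x hx
  have : MulAction.orbit G x = {x} := by
    ext y
    constructor
    · rintro ⟨g, rfl⟩
      exact hcon g
    · rintro rfl
      exact MulAction.mem_orbit_self _
  rw [this]
  exact Set.finite_singleton x

end Folner

end Vale.Agent.P196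
end
end

section

section

namespace Vale.Agent.P196

open Function

section Near

variable {α : Type*}

theorem Near.refl (L : ℕ) (l : List α) : Near L l l := ⟨[], [], l, by simp, by simp, by simp, by simp⟩

end Near

theorem finite_of_simple_of_quotient {G : Type*} [Group G] [IsSimpleGroup G]
    (h : ∃ N : Subgroup G, N.Normal ∧ N.FiniteIndex ∧ N ≠ ⊤) : Finite G := by
  obtain ⟨N, hN, hfi, hne⟩ := h
  rcases IsSimpleGroup.eq_bot_or_eq_top_of_normal N hN with h1 | h1
  · subst h1
    have : Finite (G ⧸ (⊥ : Subgroup G)) := inferInstance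
    exact Finite.of_equiv _ (QuotientGroup.quotientBot (G := G)).toEquiv
  · exact absurd h1 hne

end Vale.Agent.P196
end
end

section

section

namespace Vale.Agent.P196

open Function

section Stack

variable {𝒱 : Type*}

open Classical in
/-- Update of a non-backtracking walk (most recent vertex first). -/
noncomputable def upd : List 𝒱 → 𝒱 → List 𝒱
  | [], v => [v]
  | [a], v => if v = a then [a] else [v, a]
  | a :: b :: T, v => if v = a then a :: b :: T else if v = b then b :: T else v :: a :: b :: T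

/-- Non-backtracking walks from `v₀`. -/
def Good (A : 𝒱 → 𝒱 → Prop) (v₀ : 𝒱) : List 𝒱 → Prop
  | [] => False
  | [a] => a = v₀
  | a :: b :: T => Good A v₀ (b :: T) ∧ A b a ∧ a ≠ b ∧ ∀ c T', T = c :: T' → a ≠ c

theorem upd_head (L : List 𝒱) (v : 𝒱) : (upd L v).head? = some v := by
  classical
  rcases L with _ | ⟨a, _ | ⟨b, T⟩⟩
  · simp [upd]
  · by_cases h : v = a <;> simp [upd, h]
  · by_cases h : v = a
    · simp [upd, h]
    · by_cases h' : v = b
      · subst h'
        simp [upd, h]
      · simp [upd, h, h']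

theorem upd_self (L : List 𝒱) (v : 𝒱) (h : L.head? = some v) : upd L v = L := by
  classical
  rcases L with _ | ⟨a, _ | ⟨b, T⟩⟩
  · simp at h
  · simp only [List.head?_cons, Option.some.injEq] at h
    simp [upd, h]
  · simp only [List.head?_cons, Option.some.injEq] at h
    simp [upd, h]

theorem good_upd {A : 𝒱 → 𝒱 → Prop} {v₀ : 𝒱} (L : List 𝒱) (a v : 𝒱) (hL : Good A v₀ L)
    (ha : L.head? = some a) (hav : A a v) : Good A v₀ (upd L v) := by
  classical
  rcases L with _ | ⟨a', _ | ⟨b, T⟩⟩
  · simp at ha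
  · simp only [List.head?_cons, Option.some.injEq] at ha
    subst ha
    by_cases h : v = a'
    · simpa [upd, h] using hL
    · simp only [upd, h, if_false]
      exact ⟨hL, hav, h, by intro c T' h'; simp at h'⟩
  · simp only [List.head?_cons, Option.some.injEq] at ha
    subst ha
    by_cases h : v = a'
    · simpa [upd, h] using hL
    · by_cases h' : v = b
      · subst h'
        simp only [upd, h, if_false, if_true]
        exact hL.1
      · simp only [upd, h, h', if_false]
        refine ⟨hL, hav, h, ?_⟩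
        intro c T' hc
        simp only [List.cons.injEq] at hc
        rw [← hc.1]
        exact h'

theorem upd_upd {A : 𝒱 → 𝒱 → Prop} {v₀ : 𝒱} (L : List 𝒱) (a v : 𝒱) (hL : Good A v₀ L)
    (ha : L.head? = some a) : upd (upd L v) a = L := by
  classical
  rcases L with _ | ⟨a', _ | ⟨b, T⟩⟩
  · simp at ha
  · simp only [List.head?_cons, Option.some.injEq] at ha
    subst ha
    by_cases h : v = a'
    · simp [upd, h]
    · simp only [upd, h, if_false]
      rw [if_neg (Ne.symm h)]
      simp
  · simp only [List.head?_cons, Option.some.injEq] at ha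
    subst ha
    obtain ⟨h1, h2, h3, h4⟩ := hL
    by_cases h : v = a'
    · simp [upd, h]
    · by_cases h' : v = b
      · subst h'
        simp only [upd, h, if_false, if_true]
        rcases T with _ | ⟨c, T'⟩
        · simp [h3]
        · have h5 := h4 c T' rfl
          simp [h3, h5]
      · simp only [upd, h, h', if_false]
        rw [if_neg (Ne.symm h)]
        simp

/-- Labels of a walk. -/
def labs {α : Type*} (lab : 𝒱 → 𝒱 → α) : List 𝒱 → List α
  | [] => []
  | [_] => []
  | a :: b :: T => lab b a :: labs lab (b :: T)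

theorem labs_inj {α : Type*} {A : 𝒱 → 𝒱 → Prop} {v₀ : 𝒱} (lab : 𝒱 → 𝒱 → α)
    (hlab : ∀ u v w, A u v → A u w → lab u v = lab u w → v = w) :
    ∀ L L' : List 𝒱, Good A v₀ L → Good A v₀ L' → labs lab L = labs lab L' → L = L' := by
  intro L
  induction L with
  | nil => intro L' h; exact absurd h (by simp [Good])
  | cons a L ih =>
    intro L' h h' he
    rcases L with _ | ⟨b, T⟩
    · rcases L' with _ | ⟨a', _ | ⟨b', T'⟩⟩
      · exact absurd h' (by simp [Good])
      · rw [show a = v₀ from h, show a' = v₀ from h']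
      · simp only [labs, List.nil_eq, reduceCtorEq] at he
    · rcases L' with _ | ⟨a', _ | ⟨b', T'⟩⟩
      · exact absurd h' (by simp [Good])
      · simp [labs] at he
      · simp only [labs, List.cons.injEq] at he
        have h1 := ih (b' :: T') h.1 h'.1 he.2
        simp only [List.cons.injEq] at h1
        obtain ⟨h2, h3⟩ := h1
        subst h2
        subst h3
        rw [hlab b a a' h.2.1 h'.2.1 he.1]

theorem labs_near {α : Type*} (lab : 𝒱 → 𝒱 → α) (L : List 𝒱) (v : 𝒱) (hL : L ≠ []) :
    Near 1 (labs lab L) (labs lab (upd L v)) := by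
  classical
  rcases L with _ | ⟨a, _ | ⟨b, T⟩⟩
  · exact absurd rfl hL
  · by_cases h : v = a
    · simp only [upd, h, if_true]
      exact Near.refl _ _
    · simp only [upd, h, if_false]
      exact ⟨[], [lab a v], [], by simp only [labs, List.append_nil], by simp [labs], by simp, by simp⟩
  · by_cases h : v = a
    · simp only [upd, h, if_true]
      exact Near.refl _ _
    · by_cases h' : v = b
      · subst h'
        simp only [upd, h, if_false, if_true]
        exact ⟨[lab v a], [], labs lab (v :: T), by simp [labs], by simp, by simp, by simp⟩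
      · simp only [upd, h, h', if_false]
        exact ⟨[], [lab a v], labs lab (a :: b :: T), by simp, by simp [labs], by simp, by simp⟩

end Stack

section Lift

variable {G : Type*} [Group G] {n : ℕ} {X : Type*} [MulAction G X] {𝒱 : Type*}

/-- Adjacency of classes. -/
def Adjc (s : Fin n → G) (C : X → 𝒱) (u v : 𝒱) : Prop :=
  ∃ (x : X) (l : Fin n × Bool), C x = u ∧ C (ltr s l • x) = v

/-- The lifted set. -/
def Lft (s : Fin n → G) (C : X → 𝒱) (v₀ : 𝒱) : Type _ :=
  {q : X × List 𝒱 // Good (Adjc s C) v₀ q.2 ∧ q.2.head? = some (C q.1)}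

/-- Lifted letters. -/
noncomputable def lsig (s : Fin n → G) (C : X → 𝒱) (v₀ : 𝒱) (l : Fin n × Bool)
    (q : Lft s C v₀) : Lft s C v₀ :=
  ⟨(ltr s l • q.1.1, upd q.1.2 (C (ltr s l • q.1.1))),
    good_upd q.1.2 (C q.1.1) _ q.2.1 q.2.2 ⟨q.1.1, l, rfl, rfl⟩, upd_head _ _⟩

theorem lsig_linv (s : Fin n → G) (C : X → 𝒱) (v₀ : 𝒱) (l : Fin n × Bool)
    (q : Lft s C v₀) : lsig s C v₀ (linv l) (lsig s C v₀ l q) = q := by
  apply Subtype.ext
  have h1 : ltr s (linv l) • (ltr s l • q.1.1) = q.1.1 := by
    rw [ltr_linv, inv_smul_smul]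
  refine Prod.ext h1 ?_
  change upd (upd q.1.2 (C (ltr s l • q.1.1))) (C (ltr s (linv l) • (ltr s l • q.1.1))) = q.1.2
  rw [h1]
  exact upd_upd q.1.2 (C q.1.1) _ q.2.1 q.2.2

/-- Lifted generators as permutations. -/
noncomputable def lperm (s : Fin n → G) (C : X → 𝒱) (v₀ : 𝒱) (k : Fin n) :
    Equiv.Perm (Lft s C v₀) where
  toFun := lsig s C v₀ (k, true)
  invFun := lsig s C v₀ (k, false)
  left_inv := fun q => by simpa [linv] using lsig_linv s C v₀ (k, true) q
  right_inv := fun q => by simpa [linv] using lsig_linv s C v₀ (k, false) q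

theorem ltr_lperm (s : Fin n → G) (C : X → 𝒱) (v₀ : 𝒱) (l : Fin n × Bool)
    (q : Lft s C v₀) : ltr (lperm s C v₀) l q = lsig s C v₀ l q := by
  rcases l with ⟨k, b⟩
  cases b <;> rfl

/-- The stack after reading a word. -/
noncomputable def stk (s : Fin n → G) (C : X → 𝒱) (x : X) (L : List 𝒱) :
    List (Fin n × Bool) → List 𝒱
  | [] => L
  | l :: w => upd (stk s C x L w) (C (ev s (l :: w) • x))

theorem ev_lperm (s : Fin n → G) (C : X → 𝒱) (v₀ : 𝒱) (w : List (Fin n × Bool))
    (q : Lft s C v₀) :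
    (ev (lperm s C v₀) w q).1 = (ev s w • q.1.1, stk s C q.1.1 q.1.2 w) := by
  induction w with
  | nil => simp only [ev_nil, Equiv.Perm.coe_one, id_eq, one_smul, stk, Prod.mk.eta]
  | cons l w ih =>
    rw [ev_cons, Equiv.Perm.mul_apply, ltr_lperm]
    refine Prod.ext ?_ ?_
    · change ltr s l • (ev (lperm s C v₀) w q).1.1 = _
      rw [ih, ev_cons, mul_smul]
    · change upd (ev (lperm s C v₀) w q).1.2 (C (ltr s l • (ev (lperm s C v₀) w q).1.1)) = _
      rw [ih, stk, ev_cons, mul_smul]

theorem stk_two {s : Fin n → G} {C : X → 𝒱} {v₀ : 𝒱} (q : Lft s C v₀) (b : 𝒱)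
    (w : List (Fin n × Bool))
    (hw : ∀ w', w' <:+ w → C (ev s w' • q.1.1) = C q.1.1 ∨ C (ev s w' • q.1.1) = b) :
    (C (ev s w • q.1.1) = C q.1.1 → stk s C q.1.1 q.1.2 w = q.1.2) ∧
    (C (ev s w • q.1.1) ≠ C q.1.1 → stk s C q.1.1 q.1.2 w = upd q.1.2 b) := by
  induction w with
  | nil => simp [stk]
  | cons l w ih =>
    have ih' := ih (fun w' hw' => hw w' (hw'.trans (List.suffix_cons _ _)))
    have h1 := hw (l :: w) List.suffix_rfl
    by_cases hA : C (ev s w • q.1.1) = C q.1.1
    · have h2 := ih'.1 hA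
      constructor
      · intro h3
        rw [stk, h2, h3]
        exact upd_self _ _ q.2.2
      · intro h3
        rw [stk, h2]
        rcases h1 with h1 | h1
        · exact absurd h1 h3
        · rw [h1]
    · have h2 := ih'.2 hA
      constructor
      · intro h3
        rw [stk, h2, h3]
        exact upd_upd _ _ _ q.2.1 q.2.2
      · intro h3
        rw [stk, h2]
        rcases h1 with h1 | h1
        · exact absurd h1 h3
        · rw [h1]
          exact upd_self _ _ (upd_head _ _)

/-- Words of length at most `R` representing the identity act trivially on the lift. -/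
theorem ev_lperm_eq_one {s : Fin n → G} {C : X → 𝒱} {v₀ : 𝒱} {R : ℕ}
    (hC : ∀ (x : X) (w₁ w₂ w₃ : List (Fin n × Bool)), w₁.length ≤ R → w₂.length ≤ R →
      w₃.length ≤ R → C (ev s w₁ • x) = C (ev s w₂ • x) ∨ C (ev s w₁ • x) = C (ev s w₃ • x) ∨
        C (ev s w₂ • x) = C (ev s w₃ • x))
    (w : List (Fin n × Bool)) (hw : w.length ≤ R) (h1 : ev s w = 1) :
    ev (lperm s C v₀) w = 1 := by
  classical
  ext q
  apply Subtype.ext
  rw [ev_lperm, h1, one_smul]
  refine Prod.ext rfl ?_
  change stk s C q.1.1 q.1.2 w = q.1.2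
  obtain ⟨b, hb⟩ : ∃ b, ∀ w', w' <:+ w →
      C (ev s w' • q.1.1) = C q.1.1 ∨ C (ev s w' • q.1.1) = b := by
    by_cases hall : ∀ w', w' <:+ w → C (ev s w' • q.1.1) = C q.1.1
    · exact ⟨C q.1.1, fun w' hw' => Or.inl (hall w' hw')⟩
    · push Not at hall
      obtain ⟨w₂, hw₂, hne⟩ := hall
      refine ⟨C (ev s w₂ • q.1.1), fun w' hw' => ?_⟩
      have := hC q.1.1 [] w₂ w' (by simp) (hw₂.length_le.trans hw) (hw'.length_le.trans hw)
      simp only [ev_nil, one_smul] at this
      rcases this with h | h | h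
      · exact absurd h.symm hne
      · exact Or.inl h.symm
      · exact Or.inr h.symm
  exact (stk_two q b w hb).1 (by rw [h1, one_smul])

/-- Bound on the number of points near a vertex, from a bound on fibres. -/
theorem bound_of_fibers {Y α : Type*} [Finite α] (p : Y → List α) (k : ℕ)
    (hk : ∀ l, (p ⁻¹' {l}).encard ≤ k) (L : ℕ) :
    ∃ K : ℕ, ∀ (v : List α) (S : Finset Y),
      (∀ x ∈ S, v <:+ p x ∧ (p x).length ≤ v.length + 2 * L) → S.card ≤ K := by
  classical
  have hwf : {t : List α | t.length ≤ 2 * L}.Finite := List.finite_length_le α (2 * L)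
  refine ⟨k * hwf.toFinset.card, ?_⟩
  intro v S hS
  have h1 : (S.image p).card ≤ hwf.toFinset.card := by
    have h2 : S.image p ⊆ hwf.toFinset.image (fun t => t ++ v) := by
      intro l hl
      rw [Finset.mem_image] at hl
      obtain ⟨x, hx, rfl⟩ := hl
      obtain ⟨⟨t, ht⟩, hlen⟩ := hS x hx
      rw [Finset.mem_image]
      refine ⟨t, ?_, ht⟩
      rw [Set.Finite.mem_toFinset]
      change t.length ≤ 2 * L
      rw [← ht, List.length_append] at hlen
      omega
    exact (Finset.card_le_card h2).trans Finset.card_image_le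
  have h3 : S.card ≤ k * (S.image p).card := by
    refine Finset.card_le_mul_card_image S k ?_
    intro l hl
    have h4 : ((S.filter (fun y => p y = l) : Finset Y) : Set Y) ⊆ p ⁻¹' {l} := by
      intro y hy
      rw [Finset.mem_coe, Finset.mem_filter] at hy
      exact hy.2
    have h5 := (Set.encard_le_encard h4).trans (hk l)
    rw [Set.encard_coe_eq_coe_finsetCard] at h5
    exact_mod_cast h5
  exact h3.trans (Nat.mul_le_mul_left _ h1)

/-- The core theorem: partitions into bounded pieces such that `R`-balls meet at most two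
pieces. -/
theorem quotient_of_partition (φ : FreeGroup (Fin n) →* G) (hφ : Surjective φ)
    (S : Set (FreeGroup (Fin n))) (hSfin : S.Finite) (hS : Subgroup.normalClosure S = φ.ker)
    (ham : IsAmenable G) (R : ℕ) (hlen : ∀ x ∈ S, x.toWord.length ≤ R)
    (C : X → 𝒱) (M : ℕ) (hM : ∀ v, (C ⁻¹' {v}).encard ≤ M)
    (hC : ∀ (x : X) (w₁ w₂ w₃ : List (Fin n × Bool)), w₁.length ≤ R → w₂.length ≤ R →
      w₃.length ≤ R →
      C (ev (fun k => φ (FreeGroup.of k)) w₁ • x) = C (ev (fun k => φ (FreeGroup.of k)) w₂ • x) ∨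
      C (ev (fun k => φ (FreeGroup.of k)) w₁ • x) = C (ev (fun k => φ (FreeGroup.of k)) w₃ • x) ∨
      C (ev (fun k => φ (FreeGroup.of k)) w₂ • x) = C (ev (fun k => φ (FreeGroup.of k)) w₃ • x))
    (x₀ : X) (hinf : (MulAction.orbit G x₀).Infinite) :
    ∃ N : Subgroup G, N.Normal ∧ N.FiniteIndex ∧ N ≠ ⊤ := by
  classical
  set s : Fin n → G := fun k => φ (FreeGroup.of k) with hs
  set v₀ : 𝒱 := C x₀ with hv₀
  -- the lifted action
  have hker : φ.ker ≤ (FreeGroup.lift (lperm s C v₀)).ker := by
    rw [← hS]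
    refine Subgroup.normalClosure_le_normal ?_
    intro x hx
    have hx1 : φ x = 1 := by
      have : x ∈ φ.ker := by
        rw [← hS]
        exact Subgroup.subset_normalClosure hx
      exact this
    have hxe : ev s x.toWord = 1 := by
      rw [← hx1, ← map_mk_eq_ev, FreeGroup.mk_toWord]
    change FreeGroup.lift (lperm s C v₀) x = 1
    rw [← FreeGroup.mk_toWord (x := x), lift_mk_eq]
    exact ev_lperm_eq_one hC _ (hlen x hx) hxe
  let ψ : G →* Equiv.Perm (Lft s C v₀) :=
    (φ.liftOfSurjective hφ) ⟨FreeGroup.lift (lperm s C v₀), hker⟩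
  have hψ : ∀ x, ψ (φ x) = FreeGroup.lift (lperm s C v₀) x := fun x =>
    MonoidHom.liftOfRightInverse_comp_apply φ _ _ ⟨FreeGroup.lift (lperm s C v₀), hker⟩ x
  let act : MulAction G (Lft s C v₀) := MulAction.compHom (Lft s C v₀) ψ
  have hact : ∀ (g : G) (q : Lft s C v₀), g • q = ψ g q := fun g q => rfl
  have hproj : ∀ (g : G) (q : Lft s C v₀), (g • q).1.1 = g • q.1.1 := by
    intro g q
    obtain ⟨u, rfl⟩ := hφ g
    rw [hact, hψ, ← FreeGroup.mk_toWord (x := u), lift_mk_eq, ev_lperm, map_mk_eq_ev]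
  have hlet : ∀ (l : Fin n × Bool) (q : Lft s C v₀), ltr s l • q = lsig s C v₀ l q := by
    intro l q
    have h1 : ltr s l = φ (FreeGroup.mk [l]) := by
      rw [map_mk_eq_ev, ev_cons, ev_nil, mul_one]
    rw [hact, h1, hψ, lift_mk_eq, ev_cons, ev_nil, mul_one, ltr_lperm]
  let q₀ : Lft s C v₀ := ⟨(x₀, [v₀]), rfl, rfl⟩
  have hinf' : (MulAction.orbit G q₀).Infinite := by
    intro hfin
    apply hinf
    refine (hfin.image (fun q : Lft s C v₀ => q.1.1)).subset ?_
    rintro _ ⟨g, rfl⟩
    exact ⟨g • q₀, ⟨g, rfl⟩, hproj g q₀⟩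
  -- labels
  have hdeg : ∀ u : 𝒱, {v | Adjc s C u v}.encard ≤ ((M * (2 * n) : ℕ) : ℕ∞) := by
    intro u
    have hfinu : (C ⁻¹' {u}).Finite := Set.finite_of_encard_le_coe (hM u)
    have hsub : {v | Adjc s C u v} ⊆
        (fun y : X × (Fin n × Bool) => C (ltr s y.2 • y.1)) ''
          ((hfinu.toFinset ×ˢ (Finset.univ : Finset (Fin n × Bool)) : Finset _) : Set _) := by
      rintro v ⟨x, l, hx, hl⟩
      refine ⟨(x, l), ?_, hl⟩
      simp only [Finset.coe_product, Set.mem_prod, Set.Finite.coe_toFinset, Finset.coe_univ,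
        Set.mem_univ, and_true]
      exact hx
    refine (Set.encard_le_encard hsub).trans ((Set.encard_image_le _ _).trans ?_)
    rw [Set.encard_coe_eq_coe_finsetCard, Finset.card_product, Finset.card_univ]
    have h1 : hfinu.toFinset.card ≤ M := by
      have := hM u
      rw [hfinu.encard_eq_coe_toFinset_card] at this
      exact_mod_cast this
    have h2 : Fintype.card (Fin n × Bool) = 2 * n := by
      rw [Fintype.card_prod, Fintype.card_fin, Fintype.card_bool, mul_comm]
    rw [h2]
    exact_mod_cast Nat.mul_le_mul_right _ h1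
  have hlab : ∀ u : 𝒱, ∃ f : 𝒱 → Fin (M * (2 * n) + 1),
      ∀ v w, Adjc s C u v → Adjc s C u w → f v = f w → v = w := by
    intro u
    have hfinu : {v | Adjc s C u v}.Finite := Set.finite_of_encard_le_coe (hdeg u)
    have hcard : hfinu.toFinset.card ≤ M * (2 * n) := by
      have := hdeg u
      rw [hfinu.encard_eq_coe_toFinset_card] at this
      exact_mod_cast this
    have hemb : Nonempty (hfinu.toFinset ↪ Fin (M * (2 * n) + 1)) := by
      apply Function.Embedding.nonempty_of_card_le
      simp only [Fintype.card_coe, Fintype.card_fin]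
      omega
    obtain ⟨f⟩ := hemb
    refine ⟨fun v => if hv : v ∈ hfinu.toFinset then f ⟨v, hv⟩ else 0, ?_⟩
    intro v w hv hw hvw
    have hv' : v ∈ hfinu.toFinset := hfinu.mem_toFinset.2 hv
    have hw' : w ∈ hfinu.toFinset := hfinu.mem_toFinset.2 hw
    simp only [hv', hw', dif_pos] at hvw
    have := f.injective hvw
    simpa using this
  choose lab hlab using hlab
  let p : Lft s C v₀ → List (Fin (M * (2 * n) + 1)) := fun q => labs lab q.1.2
  have hfib : ∀ l, (p ⁻¹' {l}).encard ≤ (M : ℕ∞) := by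
    intro l
    rcases Set.eq_empty_or_nonempty (p ⁻¹' {l}) with he | ⟨q₁, hq₁⟩
    · rw [he]; simp
    · have hinj : Set.InjOn (fun q : Lft s C v₀ => q.1.1) (p ⁻¹' {l}) := by
        intro q hq q' hq' hqq
        apply Subtype.ext
        refine Prod.ext hqq ?_
        have h1 : labs lab q.1.2 = labs lab q'.1.2 := by
          have h2 : p q = l := hq
          have h3 : p q' = l := hq'
          exact h2.trans h3.symm
        exact labs_inj lab (fun u v w => hlab u v w) _ _ q.2.1 q'.2.1 h1
      rw [← hinj.encard_image]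
      refine (Set.encard_le_encard ?_).trans (hM (C q₁.1.1))
      rintro _ ⟨q, hq, rfl⟩
      have h1 : labs lab q.1.2 = labs lab q₁.1.2 := by
        have h2 : p q = l := hq
        have h3 : p q₁ = l := hq₁
        exact h2.trans h3.symm
      have h2 := labs_inj lab (fun u v w => hlab u v w) _ _ q.2.1 q₁.2.1 h1
      have h3 := q.2.2
      have h4 := q₁.2.2
      rw [h2] at h3
      have h5 : some (C q.1.1) = some (C q₁.1.1) := h3.symm.trans h4
      exact Option.some.inj h5
  obtain ⟨K, hK⟩ := bound_of_fibers p M hfib 1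
  have hNear : ∀ (q : Lft s C v₀) (l : Fin n × Bool), Near 1 (p q) (p (ltr s l • q)) := by
    intro q l
    rw [hlet]
    refine labs_near lab q.1.2 _ ?_
    intro he
    have := q.2.2
    rw [he] at this
    simp at this
  exact quotient_of_slabProperty φ hφ ⟨S, hSfin, hS⟩ K
    (slabProperty_of_list φ hφ ham q₀ hinf' one_pos p K hK hNear)

end Lift

end Vale.Agent.P196
end
end

section

section

namespace Vale.Agent.P196

open Function

section Reach

variable {G : Type*} [Group G] {n : ℕ} {X : Type*} [MulAction G X]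

/-- `y` is reached from `x` by a word of length at most `m`. -/
def Rch (s : Fin n → G) (m : ℕ) (x y : X) : Prop :=
  ∃ w : List (Fin n × Bool), w.length ≤ m ∧ ev s w • x = y

theorem Rch.refl (s : Fin n → G) (m : ℕ) (x : X) : Rch s m x x := ⟨[], by simp, by simp⟩

theorem Rch.mono {s : Fin n → G} {m m' : ℕ} (h : m ≤ m') {x y : X} (H : Rch s m x y) :
    Rch s m' x y := by
  obtain ⟨w, hw, h1⟩ := H
  exact ⟨w, hw.trans h, h1⟩

theorem ev_append (s : Fin n → G) (w w' : List (Fin n × Bool)) :
    ev s (w ++ w') = ev s w * ev s w' := by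
  simp [ev]

theorem Rch.trans {s : Fin n → G} {m m' : ℕ} {x y z : X} (H : Rch s m x y)
    (H' : Rch s m' y z) : Rch s (m + m') x z := by
  obtain ⟨w, hw, h1⟩ := H
  obtain ⟨w', hw', h1'⟩ := H'
  refine ⟨w' ++ w, by rw [List.length_append]; omega, ?_⟩
  rw [ev_append, mul_smul, h1, h1']

theorem ev_reverse_inv (s : Fin n → G) (w : List (Fin n × Bool)) :
    ev s ((w.map linv).reverse) = (ev s w)⁻¹ := by
  induction w with
  | nil => simp
  | cons l w ih =>
    rw [List.map_cons, List.reverse_cons, ev_append, ih, ev_cons, ev_nil, mul_one, ltr_linv,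
      ev_cons, mul_inv_rev]

theorem Rch.symm {s : Fin n → G} {m : ℕ} {x y : X} (H : Rch s m x y) : Rch s m y x := by
  obtain ⟨w, hw, h1⟩ := H
  refine ⟨(w.map linv).reverse, by simpa using hw, ?_⟩
  rw [ev_reverse_inv, ← h1, inv_smul_smul]

theorem ball_finite (s : Fin n → G) (m : ℕ) (x : X) : {y | Rch s m x y}.Finite := by
  have h1 : {w : List (Fin n × Bool) | w.length ≤ m}.Finite := List.finite_length_le _ _
  refine (h1.image (fun w => ev s w • x)).subset ?_
  rintro y ⟨w, hw, rfl⟩
  exact ⟨w, hw, rfl⟩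

/-- The finset of points reached from `x` by words of length at most `m`. -/
noncomputable def bl (s : Fin n → G) (m : ℕ) (x : X) : Finset X := (ball_finite s m x).toFinset

theorem mem_bl {s : Fin n → G} {m : ℕ} {x y : X} : y ∈ bl s m x ↔ Rch s m x y := by
  simp [bl]

/-- Annulus of thickness `r`. -/
noncomputable def ann (s : Fin n → G) (r ρ : ℕ) (x : X) : Finset X := by
  classical exact bl s ρ x \ bl s (ρ - r) x

theorem mem_ann {s : Fin n → G} {r ρ : ℕ} {x y : X} :
    y ∈ ann s r ρ x ↔ Rch s ρ x y ∧ ¬ Rch s (ρ - r) x y := by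
  classical
  unfold ann
  rw [Finset.mem_sdiff, mem_bl, mem_bl]

/-- Chains of steps of size `r` avoiding `Z` inside `Φ`. -/
def Stp (s : Fin n → G) (r : ℕ) (Φ Z : Set X) (y z : X) : Prop :=
  (y ∈ Φ ∧ y ∉ Z) ∧ (z ∈ Φ ∧ z ∉ Z) ∧ Rch s r y z

/-- `Z` cuts `Φ` into pieces of diameter at most `D`. -/
def Cuts (s : Fin n → G) (r D : ℕ) (Φ Z : Set X) : Prop :=
  ∀ y z, Relation.ReflTransGen (Stp s r Φ Z) y z → Rch s D y z

theorem cuts_replace {s : Fin n → G} {r D : ℕ} {Φ Z : Set X} (hZ : Cuts s r D Φ Z) (x : X)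
    (ρ : ℕ) (hr : r ≤ ρ) (hρ : 2 * ρ ≤ D) :
    Cuts s r D Φ ((Z \ {y | Rch s ρ x y}) ∪ {y | y ∈ Φ ∧ y ∈ ann s r ρ x}) := by
  intro y z hyz
  set Z' := (Z \ {y | Rch s ρ x y}) ∪ {y | y ∈ Φ ∧ y ∈ ann s r ρ x} with hZ'
  -- inside points stay inside, outside points stay outside
  have hin : ∀ u v, Stp s r Φ Z' u v → Rch s (ρ - r) x u → Rch s (ρ - r) x v := by
    rintro u v ⟨⟨huΦ, hu⟩, ⟨hvΦ, hv⟩, huv⟩ hxu
    by_contra hcon
    apply hv
    refine Or.inr ⟨hvΦ, ?_⟩
    rw [mem_ann]
    refine ⟨?_, hcon⟩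
    exact (hxu.trans huv).mono (by omega)
  have hout : ∀ u v, Stp s r Φ Z' u v → ¬ Rch s (ρ - r) x u → Stp s r Φ Z u v := by
    rintro u v ⟨⟨huΦ, hu⟩, ⟨hvΦ, hv⟩, huv⟩ hxu
    have hxv : ¬ Rch s (ρ - r) x v := fun h =>
      hxu (hin v u ⟨⟨hvΦ, hv⟩, ⟨huΦ, hu⟩, huv.symm⟩ h)
    have key : ∀ t, t ∈ Φ → t ∉ Z' → ¬ Rch s (ρ - r) x t → t ∉ Z := by
      intro t htΦ ht hxt htZ
      by_cases hρt : Rch s ρ x t
      · exact ht (Or.inr ⟨htΦ, by rw [mem_ann]; exact ⟨hρt, hxt⟩⟩)
      · exact ht (Or.inl ⟨htZ, hρt⟩)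
    exact ⟨⟨huΦ, key u huΦ hu hxu⟩, ⟨hvΦ, key v hvΦ hv hxv⟩, huv⟩
  by_cases hy : Rch s (ρ - r) x y
  · have hz : Rch s (ρ - r) x z := by
      induction hyz with
      | refl => exact hy
      | tail _ h ih => exact hin _ _ h ih
    exact (hy.symm.trans hz).mono (by omega)
  · have hyz' : Relation.ReflTransGen (Stp s r Φ Z) y z ∧ ¬ Rch s (ρ - r) x z := by
      induction hyz with
      | refl => exact ⟨Relation.ReflTransGen.refl, hy⟩
      | tail _ h ih =>
        refine ⟨ih.1.tail (hout _ _ h ih.2), ?_⟩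
        intro h2
        exact ih.2 (hin _ _ ⟨h.2.1, h.1, h.2.2.symm⟩ h2)
    exact hZ y z hyz'.1

/-- Minimal cutting sets of finite sets. -/
theorem exists_min_cut (s : Fin n → G) (r D : ℕ) (Φ : Finset X) :
    ∃ Z : Finset X, Z ⊆ Φ ∧ Cuts s r D (Φ : Set X) (Z : Set X) ∧
      ∀ x ρ, r ≤ ρ → 2 * ρ ≤ D → ∀ T : Finset X, T ⊆ Z → T ⊆ bl s ρ x →
        T.card ≤ (ann s r ρ x).card := by
  classical
  have hne : (Φ.powerset.filter
      (fun Z : Finset X => Cuts s r D (Φ : Set X) (Z : Set X))).Nonempty := by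
    refine ⟨Φ, ?_⟩
    rw [Finset.mem_filter, Finset.mem_powerset]
    refine ⟨Finset.Subset.refl _, ?_⟩
    intro y z hyz
    induction hyz with
    | refl => exact Rch.refl _ _ _
    | tail _ h _ => exact absurd h.1.1 h.1.2
  obtain ⟨Z, hZ, hmin⟩ := Finset.exists_min_image _ Finset.card hne
  rw [Finset.mem_filter, Finset.mem_powerset] at hZ
  refine ⟨Z, hZ.1, hZ.2, ?_⟩
  intro x ρ hr hρ T hTZ hTb
  set Z' : Finset X := (Z \ bl s ρ x) ∪ Φ.filter (fun y => y ∈ ann s r ρ x) with hZ'
  have hZ'cut : Cuts s r D (Φ : Set X) (Z' : Set X) := by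
    have := cuts_replace hZ.2 x ρ hr hρ
    have heq : (Z' : Set X) = ((Z : Set X) \ {y | Rch s ρ x y}) ∪
        {y | y ∈ (Φ : Set X) ∧ y ∈ ann s r ρ x} := by
      ext y
      simp only [hZ', Finset.coe_union, Finset.coe_sdiff, Finset.coe_filter, Set.mem_union,
        Set.mem_sdiff, Finset.mem_coe, mem_bl]
      rfl
    rw [heq]
    exact this
  have hZ'mem : Z' ∈ Φ.powerset.filter
      (fun Z : Finset X => Cuts s r D (Φ : Set X) (Z : Set X)) := by
    rw [Finset.mem_filter, Finset.mem_powerset]
    refine ⟨?_, hZ'cut⟩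
    intro y hy
    rw [hZ', Finset.mem_union, Finset.mem_sdiff, Finset.mem_filter] at hy
    rcases hy with hy | hy
    · exact hZ.1 hy.1
    · exact hy.1
  have h1 := hmin Z' hZ'mem
  have h2 : Z'.card ≤ (Z \ bl s ρ x).card + (ann s r ρ x).card := by
    refine (Finset.card_union_le _ _).trans (Nat.add_le_add_left ?_ _)
    refine Finset.card_le_card ?_
    intro y hy
    rw [Finset.mem_filter] at hy
    exact hy.2
  have h3 : (Z \ bl s ρ x).card + T.card ≤ Z.card := by
    rw [← Finset.card_union_of_disjoint]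
    · refine Finset.card_le_card ?_
      intro y hy
      rw [Finset.mem_union, Finset.mem_sdiff] at hy
      rcases hy with hy | hy
      · exact hy.1
      · exact hTZ hy
    · rw [Finset.disjoint_left]
      intro y hy hy'
      rw [Finset.mem_sdiff] at hy
      exact hy.2 (hTb hy')
  omega

/-- A global cutting set, obtained as an ultralimit of minimal finite ones. -/
theorem exists_global_cut (s : Fin n → G) (r D : ℕ) :
    ∃ Z : Set X, Cuts s r D Set.univ Z ∧
      ∀ x ρ, r ≤ ρ → 2 * ρ ≤ D → ∀ T : Finset X, (T : Set X) ⊆ Z → T ⊆ bl s ρ x →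
        T.card ≤ (ann s r ρ x).card := by
  classical
  have hex := fun Φ : Finset X => exists_min_cut s r D Φ
  choose Z hZΦ hZcut hZcard using hex
  let 𝓤 : Ultrafilter (Finset X) := Ultrafilter.of Filter.atTop
  have h𝓤 : (𝓤 : Filter (Finset X)) ≤ Filter.atTop := Ultrafilter.of_le _
  have hmem : ∀ x : X, ∀ᶠ Φ in (𝓤 : Filter (Finset X)), x ∈ Φ := by
    intro x
    refine h𝓤 ?_
    filter_upwards [Filter.eventually_ge_atTop ({x} : Finset X)] with Φ hΦ
    exact hΦ (Finset.mem_singleton_self x)
  let Zl : Set X := {y | ∀ᶠ Φ in (𝓤 : Filter (Finset X)), y ∈ Z Φ}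
  have hnot : ∀ y, y ∉ Zl → ∀ᶠ Φ in (𝓤 : Filter (Finset X)), y ∉ Z Φ := by
    intro y hy
    exact Ultrafilter.eventually_not.2 hy
  refine ⟨Zl, ?_, ?_⟩
  · intro y z hyz
    have key : ∀ᶠ (Φ : Finset X) in (𝓤 : Filter (Finset X)),
        Relation.ReflTransGen (Stp s r (Φ : Set X) (Z Φ : Set X)) y z := by
      induction hyz with
      | refl => exact Filter.Eventually.of_forall fun _ => Relation.ReflTransGen.refl
      | @tail b c _ h ih =>
        filter_upwards [ih, hmem b, hmem c, hnot b h.1.2, hnot c h.2.1.2] with Φ h1 h2 h3 h4 h5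
        exact h1.tail ⟨⟨h2, h4⟩, ⟨h3, h5⟩, h.2.2⟩
    obtain ⟨Φ, hΦ⟩ := key.exists
    exact hZcut Φ y z hΦ
  · intro x ρ hr hρ T hT hTb
    have key : ∀ᶠ Φ in (𝓤 : Filter (Finset X)), ∀ y ∈ T, y ∈ Z Φ := by
      rw [Filter.eventually_all_finset]
      intro y hy
      exact hT hy
    obtain ⟨Φ, hΦ⟩ := key.exists
    exact hZcard Φ x ρ hr hρ T hΦ hTb

/-- If the growth is subquadratic at some scale, there is an annulus with few points. -/
theorem exists_small_annulus (s : Fin n → G) (r m : ℕ) (hr : 0 < r) (x : X)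
    (hg : (bl s (2 * m) x).card < (m / r) * (m / r)) :
    ∃ ρ, m ≤ ρ ∧ ρ ≤ 2 * m ∧ r ≤ ρ ∧ (ann s r ρ x).card < m / r := by
  classical
  by_contra hcon
  push Not at hcon
  set J := m / r with hJ
  have hJr : J * r ≤ m := Nat.div_mul_le_self m r
  have h1 : ∀ j ∈ Finset.range J, J ≤ (ann s r (m + (j + 1) * r) x).card := by
    intro j hj
    rw [Finset.mem_range] at hj
    have h2 : (j + 1) * r ≤ J * r := Nat.mul_le_mul_right _ hj
    have h3 : 1 * r ≤ (j + 1) * r := Nat.mul_le_mul_right _ (by omega)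
    exact hcon _ (by omega) (by omega) (by omega)
  have h2 : ((Finset.range J).biUnion (fun j => ann s r (m + (j + 1) * r) x)).card =
      ∑ j ∈ Finset.range J, (ann s r (m + (j + 1) * r) x).card := by
    rw [Finset.card_biUnion]
    intro i _ j _ hij
    rw [Function.onFun, Finset.disjoint_left]
    intro y hy hy'
    rw [mem_ann] at hy hy'
    rcases lt_or_gt_of_ne hij with h | h
    · apply hy'.2
      have h3 : (i + 1) * r ≤ j * r := Nat.mul_le_mul_right _ h
      have h4 : m + (j + 1) * r - r = m + j * r := by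
        have : (j + 1) * r = j * r + r := by ring
        omega
      rw [h4]
      exact hy.1.mono (by omega)
    · apply hy.2
      have h3 : (j + 1) * r ≤ i * r := Nat.mul_le_mul_right _ h
      have h4 : m + (i + 1) * r - r = m + i * r := by
        have : (i + 1) * r = i * r + r := by ring
        omega
      rw [h4]
      exact hy'.1.mono (by omega)
  have h3 : ((Finset.range J).biUnion (fun j => ann s r (m + (j + 1) * r) x)) ⊆
      bl s (2 * m) x := by
    intro y hy
    rw [Finset.mem_biUnion] at hy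
    obtain ⟨j, hj, hy⟩ := hy
    rw [Finset.mem_range] at hj
    rw [mem_ann] at hy
    rw [mem_bl]
    have h2 : (j + 1) * r ≤ J * r := Nat.mul_le_mul_right _ hj
    exact hy.1.mono (by omega)
  have h4 := Finset.card_le_card h3
  rw [h2] at h4
  have h5 := Finset.sum_le_sum h1
  rw [Finset.sum_const, Finset.card_range, smul_eq_mul] at h5
  omega

/-- Partition from subquadratic growth at one scale. -/
theorem exists_partition (s : Fin n → G) (R m : ℕ) (hR : 0 < R)
    (hg : ∀ x : X, (bl s (2 * m) x).card < (m / (2 * R)) * (m / (2 * R))) :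
    ∃ (C : X → Set X) (M : ℕ), (∀ v, (C ⁻¹' {v}).encard ≤ M) ∧
      ∀ (x : X) (w₁ w₂ w₃ : List (Fin n × Bool)), w₁.length ≤ R → w₂.length ≤ R →
      w₃.length ≤ R → C (ev s w₁ • x) = C (ev s w₂ • x) ∨ C (ev s w₁ • x) = C (ev s w₃ • x) ∨
        C (ev s w₂ • x) = C (ev s w₃ • x) := by
  classical
  set r := 2 * R with hr
  obtain ⟨Z, hZcut, hZcard⟩ := exists_global_cut (X := X) s r (4 * m)
  -- steps staying on the same side
  let st : X → X → Prop := fun y z => (y ∈ Z ↔ z ∈ Z) ∧ Rch s r y z
  have hst_symm : ∀ y z, st y z → st z y := fun y z h => ⟨h.1.symm, h.2.symm⟩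
  have hsymm : ∀ y z, Relation.ReflTransGen st y z → Relation.ReflTransGen st z y := by
    intro y z h
    induction h with
    | refl => exact Relation.ReflTransGen.refl
    | tail _ h ih => exact Relation.ReflTransGen.head (hst_symm _ _ h) ih
  let C : X → Set X := fun x => {y | Relation.ReflTransGen st x y}
  have hCeq : ∀ x y, C x = C y ↔ Relation.ReflTransGen st x y := by
    intro x y
    constructor
    · intro h
      have : y ∈ C y := Relation.ReflTransGen.refl
      rw [← h] at this
      exact this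
    · intro h
      ext z
      exact ⟨fun hz => (hsymm _ _ h).trans hz, fun hz => h.trans hz⟩
  -- components are bounded
  have hbdd : ∀ x y, Relation.ReflTransGen st x y → Rch s (4 * m) x y := by
    intro x y hxy
    by_cases hx : x ∈ Z
    · -- component inside `Z`
      have hyZ : ∀ y, Relation.ReflTransGen st x y → y ∈ Z := by
        intro y h
        induction h with
        | refl => exact hx
        | tail _ h ih => exact h.1.1 ih
      have key : ∀ y, Relation.ReflTransGen st x y → ∀ j, ¬ Rch s (j * r) x y →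
          ∃ u ∈ Z, Rch s ((j + 1) * r) x u ∧ ¬ Rch s (j * r) x u := by
        intro y h
        induction h with
        | refl => intro j hj; exact absurd (Rch.refl _ _ _) hj
        | @tail b c hb h ih =>
          intro j hj
          by_cases hjb : Rch s (j * r) x b
          · refine ⟨c, hyZ c (hb.tail h), ?_, hj⟩
            have := hjb.trans h.2
            rwa [show j * r + r = (j + 1) * r by ring] at this
          · exact ih j hjb
      by_contra hcon
      have hcon' : ¬ Rch s m x y := fun h => hcon (h.mono (by omega))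
      obtain ⟨ρ, hρ1, hρ2, hρ3, hρ4⟩ := exists_small_annulus s r m (by omega) x (hg x)
      set J := m / r with hJ
      have hJr : J * r ≤ m := Nat.div_mul_le_self m r
      have h1 : ∀ j, j < J → ∃ u ∈ Z, Rch s ((j + 1) * r) x u ∧ ¬ Rch s (j * r) x u := by
        intro j hj
        refine key y hxy j ?_
        intro h
        apply hcon'
        refine h.mono ?_
        exact (Nat.mul_le_mul_right r hj.le).trans hJr
      have : Nonempty X := ⟨x⟩
      choose! u huZ hu1 hu2 using h1
      have hinj : Set.InjOn u (Finset.range J : Set ℕ) := by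
        intro i hi j hj hij
        simp only [Finset.coe_range, Set.mem_Iio] at hi hj
        by_contra hne
        rcases lt_or_gt_of_ne hne with h | h
        · apply hu2 j hj
          rw [← hij]
          exact (hu1 i hi).mono (Nat.mul_le_mul_right _ h)
        · apply hu2 i hi
          rw [hij]
          exact (hu1 j hj).mono (Nat.mul_le_mul_right _ h)
      have h2 := hZcard x ρ hρ3 (by omega) ((Finset.range J).image u) (by
        intro z hz
        rw [Finset.mem_coe, Finset.mem_image] at hz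
        obtain ⟨j, hj, rfl⟩ := hz
        exact huZ j (Finset.mem_range.1 hj)) (by
        intro z hz
        rw [Finset.mem_image] at hz
        obtain ⟨j, hj, rfl⟩ := hz
        rw [Finset.mem_range] at hj
        rw [mem_bl]
        refine (hu1 j hj).mono ?_
        exact ((Nat.mul_le_mul_right r hj).trans hJr).trans hρ1)
      rw [Finset.card_image_of_injOn hinj, Finset.card_range] at h2
      omega
    · -- component outside `Z`
      refine hZcut x y ?_
      have : Relation.ReflTransGen (Stp s r Set.univ Z) x y ∧ y ∉ Z := by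
        induction hxy with
        | refl => exact ⟨Relation.ReflTransGen.refl, hx⟩
        | @tail b c _ h ih =>
          have hc : c ∉ Z := fun hc => ih.2 (h.1.2 hc)
          exact ⟨ih.1.tail ⟨⟨trivial, ih.2⟩, ⟨trivial, hc⟩, h.2⟩, hc⟩
      exact this.1
  refine ⟨C, (List.finite_length_le (Fin n × Bool) (4 * m)).toFinset.card, ?_, ?_⟩
  · intro v
    rcases Set.eq_empty_or_nonempty (C ⁻¹' {v}) with he | ⟨x, hx⟩
    · rw [he]; simp only [Set.encard_empty, zero_le]
    · have hsub : C ⁻¹' {v} ⊆ (fun w => ev s w • x) ''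
          ((List.finite_length_le (Fin n × Bool) (4 * m)).toFinset : Set _) := by
        intro y hy
        have h1 : C x = C y := by
          have h2 : C x = v := hx
          have h3 : C y = v := hy
          rw [h2, h3]
        obtain ⟨w, hw, hw'⟩ := hbdd x y ((hCeq x y).1 h1)
        refine ⟨w, ?_, hw'⟩
        rw [Set.Finite.coe_toFinset]
        exact hw
      refine (Set.encard_le_encard hsub).trans ((Set.encard_image_le _ _).trans ?_)
      rw [Set.encard_coe_eq_coe_finsetCard]
  · intro x w₁ w₂ w₃ h1 h2 h3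
    have hst : ∀ w w' : List (Fin n × Bool), w.length ≤ R → w'.length ≤ R →
        Rch s r (ev s w • x) (ev s w' • x) := by
      intro w w' hw hw'
      have h4 : Rch s R x (ev s w • x) := ⟨w, hw, rfl⟩
      have h5 : Rch s R x (ev s w' • x) := ⟨w', hw', rfl⟩
      exact (h4.symm.trans h5).mono (by omega)
    have hC : ∀ w w' : List (Fin n × Bool), w.length ≤ R → w'.length ≤ R →
        (ev s w • x ∈ Z ↔ ev s w' • x ∈ Z) → C (ev s w • x) = C (ev s w' • x) := by
      intro w w' hw hw' h
      rw [hCeq]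
      exact Relation.ReflTransGen.single ⟨h, hst w w' hw hw'⟩
    by_cases e1 : ev s w₁ • x ∈ Z <;> by_cases e2 : ev s w₂ • x ∈ Z <;>
      by_cases e3 : ev s w₃ • x ∈ Z
    · exact Or.inl (hC _ _ h1 h2 (by simp [e1, e2]))
    · exact Or.inl (hC _ _ h1 h2 (by simp [e1, e2]))
    · exact Or.inr (Or.inl (hC _ _ h1 h3 (by simp [e1, e3])))
    · exact Or.inr (Or.inr (hC _ _ h2 h3 (by simp [e2, e3])))
    · exact Or.inr (Or.inr (hC _ _ h2 h3 (by simp [e2, e3])))
    · exact Or.inr (Or.inl (hC _ _ h1 h3 (by simp [e1, e3])))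
    · exact Or.inl (hC _ _ h1 h2 (by simp [e1, e2]))
    · exact Or.inl (hC _ _ h1 h2 (by simp [e1, e2]))

end Reach

end Vale.Agent.P196
end
end

section

section

namespace Vale.Agent.P196

open Function

universe u v

/-- The set of values of words of bounded length is finite. -/
theorem exists_words_finset {G : Type*} [Group G] {n : ℕ} (s : Fin n → G) (R : ℕ) :
    ∃ F : Finset G, ∀ w : List (Fin n × Bool), w.length ≤ R → ev s w ∈ F := by
  classical
  refine ⟨(List.finite_length_le (Fin n × Bool) R).toFinset.image (ev s), ?_⟩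
  intro w hw
  rw [Finset.mem_image]
  exact ⟨w, (Set.Finite.mem_toFinset _).2 hw, rfl⟩

/-- Partitions into bounded pieces such that translates of a finite set meet at most two pieces
force finite quotients. -/
theorem exists_finset_quotient {G : Type u} [Group G] [Group.IsFinitelyPresented G]
    (hG : IsAmenable G) :
    ∃ F : Finset G, ∀ (X : Type v) [MulAction G X] (r : Setoid X) (M : ℕ),
      (∀ x, {y | r x y}.encard ≤ M) →
      (∀ x, ∀ a ∈ F, ∀ b ∈ F, ∀ c ∈ F,
        r (a • x) (b • x) ∨ r (a • x) (c • x) ∨ r (b • x) (c • x)) →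
      ∀ x : X, (MulAction.orbit G x).Infinite →
        ∃ N : Subgroup G, N.Normal ∧ N.FiniteIndex ∧ N ≠ ⊤ := by
  classical
  obtain ⟨n, φ, hφ, S, hSfin, hS⟩ := (inferInstance : Group.IsFinitelyPresented G).out
  set R : ℕ := hSfin.toFinset.sup (fun x => x.toWord.length) with hR
  obtain ⟨F, hF⟩ := exists_words_finset (fun k => φ (FreeGroup.of k)) R
  refine ⟨F, ?_⟩
  intro X _ r M hM hr x hx
  refine quotient_of_partition φ hφ S hSfin hS hG R ?_ (fun y => (Quotient.mk r y : Quotient r)) M
    ?_ ?_ x hx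
  · intro y hy
    exact Finset.le_sup (f := fun x : FreeGroup (Fin n) => x.toWord.length)
      (hSfin.mem_toFinset.2 hy)
  · intro q
    induction q using Quotient.inductionOn with
    | h y =>
      refine le_trans (Set.encard_le_encard ?_) (hM y)
      intro z hz
      exact r.symm' (Quotient.exact hz)
  · intro y w₁ w₂ w₃ h1 h2 h3
    rcases hr y _ (hF w₁ h1) _ (hF w₂ h2) _ (hF w₃ h3) with h | h | h
    · exact Or.inl (Quotient.sound h)
    · exact Or.inr (Or.inl (Quotient.sound h))
    · exact Or.inr (Or.inr (Quotient.sound h))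

/-- The orbit of a point moved by some group element is infinite, when there are no finite
quotients. -/
theorem orbit_infinite_of_no_quotient {G : Type*} [Group G]
    (hq : ∀ N : Subgroup G, N.Normal → N.FiniteIndex → N = ⊤) {X : Type*} [MulAction G X]
    (x : X) (g : G) (hg : g • x ≠ x) : (MulAction.orbit G x).Infinite := by
  intro hfin
  have hf : Finite (MulAction.orbit G x) := hfin.to_subtype
  let ψ : G →* Equiv.Perm (MulAction.orbit G x) := MulAction.toPermHom G (MulAction.orbit G x)
  have hfi : ψ.ker.FiniteIndex := by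
    have : Finite ψ.range := inferInstance
    exact Subgroup.finiteIndex_ker ψ
  have h := hq ψ.ker inferInstance hfi
  apply hg
  have h1 : g ∈ ψ.ker := by rw [h]; trivial
  have h2 : ψ g ⟨x, MulAction.mem_orbit_self x⟩ = ⟨x, MulAction.mem_orbit_self x⟩ := by
    rw [(MonoidHom.mem_ker).1 h1]
    rfl
  exact congrArg Subtype.val h2

/-- Points reached from `x` by words of length at most `m` in `A` and inverses. -/
def reachA {G : Type*} [Group G] {X : Type*} [MulAction G X] (A : Set G) (m : ℕ) (x : X) : Set X :=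
  {y | ∃ w : List G, w.length ≤ m ∧ (∀ a ∈ w, a ∈ A ∨ a⁻¹ ∈ A) ∧ y = w.prod • x}

theorem reachA_finite {G : Type*} [Group G] {X : Type*} [MulAction G X] {A : Set G}
    (hA : A.Finite) (m : ℕ) (x : X) : (reachA A m x).Finite := by
  have hfin : (A ∪ A⁻¹).Finite := hA.union hA.inv
  have hw : {w : List G | w.length ≤ m ∧ ∀ a ∈ w, a ∈ A ∪ A⁻¹}.Finite := by
    have : Finite (A ∪ A⁻¹ : Set G) := hfin.to_subtype
    refine ((List.finite_length_le (A ∪ A⁻¹ : Set G) m).image
      (fun l => l.map Subtype.val)).subset ?_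
    rintro w ⟨hw, hw'⟩
    refine ⟨w.attach.map (fun a => ⟨a.1, hw' a.1 a.2⟩), by simpa only [Set.mem_ofPred_eq, List.length_map, List.length_attach] using hw, ?_⟩
    simp only [List.map_map, comp_def, List.map_subtype, List.unattach_attach, List.map_id_fun', id_eq]
  refine (hw.image (fun w => w.prod • x)).subset ?_
  rintro y ⟨w, h1, h2, rfl⟩
  exact ⟨w, ⟨h1, fun a ha => h2 a ha⟩, rfl⟩

theorem self_mem_reachA {G : Type*} [Group G] {X : Type*} [MulAction G X] (A : Set G)
    (m : ℕ) (x : X) : x ∈ reachA A m x := ⟨[], by simp, by simp, by simp⟩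

theorem exists_word_length {G : Type*} [Group G] {A : Set G} (hA : Subgroup.closure A = ⊤)
    {n : ℕ} (s : Fin n → G) :
    ∃ L : ℕ, 0 < L ∧ ∀ l : Fin n × Bool, ∃ w : List G, w.length ≤ L ∧
      (∀ a ∈ w, a ∈ A ∨ a⁻¹ ∈ A) ∧ w.prod = ltr s l := by
  have h1 : ∀ l : Fin n × Bool, ∃ w : List G, (∀ a ∈ w, a ∈ A ∨ a⁻¹ ∈ A) ∧ w.prod = ltr s l := by
    intro l
    have hg : ltr s l ∈ Subgroup.closure A := hA ▸ Subgroup.mem_top _
    have hg' : ltr s l ∈ Submonoid.closure (A ∪ A⁻¹) := by
      rw [← Subgroup.closure_toSubmonoid]; exact hg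
    obtain ⟨w, hw, hw'⟩ := Submonoid.exists_list_of_mem_closure hg'
    exact ⟨w, fun a ha => hw a ha, hw'⟩
  choose w hw hw' using h1
  refine ⟨(Finset.univ.sup fun l => (w l).length) + 1, by omega, ?_⟩
  intro l
  refine ⟨w l, ?_, hw l, hw' l⟩
  have : (w l).length ≤ Finset.univ.sup fun l => (w l).length :=
    Finset.le_sup (f := fun l => (w l).length) (Finset.mem_univ l)
  omega

theorem exists_long_word {G : Type*} [Group G] {A : Set G} {n : ℕ} {s : Fin n → G} {L : ℕ}
    (hL : ∀ l : Fin n × Bool, ∃ w : List G, w.length ≤ L ∧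
      (∀ a ∈ w, a ∈ A ∨ a⁻¹ ∈ A) ∧ w.prod = ltr s l) (v : List (Fin n × Bool)) :
    ∃ w : List G, w.length ≤ L * v.length ∧ (∀ a ∈ w, a ∈ A ∨ a⁻¹ ∈ A) ∧ w.prod = ev s v := by
  induction v with
  | nil => exact ⟨[], by simp, by simp, by simp⟩
  | cons l v ih =>
    obtain ⟨w, hw1, hw2, hw3⟩ := ih
    obtain ⟨w', hw1', hw2', hw3'⟩ := hL l
    refine ⟨w' ++ w, ?_, ?_, ?_⟩
    · rw [List.length_append, List.length_cons]
      have : L * (v.length + 1) = L * v.length + L := by ring
      omega
    · intro a ha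
      rcases List.mem_append.1 ha with h | h
      · exact hw2' a h
      · exact hw2 a h
    · rw [List.prod_append, hw3, hw3', ev_cons]

/-- Growth: every nontrivial action of an infinite f.p. amenable group without finite quotients
has at least quadratic growth, uniformly over all actions. -/
theorem quadratic_growth {G : Type u} [Group G] [Group.IsFinitelyPresented G]
    (hG : IsAmenable G) (hq : ∀ N : Subgroup G, N.Normal → N.FiniteIndex → N = ⊤)
    (A : Set G) (hAf : A.Finite) (hA : Subgroup.closure A = ⊤) :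
    ∃ c : ℕ, ∀ (X : Type v) [MulAction G X], (∃ (g : G) (x : X), g • x ≠ x) →
      ∀ m : ℕ, ∃ x : X, m * m ≤ c * (reachA A m x).ncard := by
  classical
  obtain ⟨n, φ, hφ, S, hSfin, hS⟩ := (inferInstance : Group.IsFinitelyPresented G).out
  set s : Fin n → G := fun k => φ (FreeGroup.of k) with hs
  set R : ℕ := hSfin.toFinset.sup (fun x => x.toWord.length) + 1 with hR
  obtain ⟨L, hL0, hL⟩ := exists_word_length hA s
  set K : ℕ := 4 * L * R with hK
  have hKpos : 0 < K := by (clear * - hL0 hSfin; positivity)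
  refine ⟨4 * K * K, ?_⟩
  rintro X _ ⟨g, x₀, hgx⟩ m
  by_contra hcon
  push Not at hcon
  have hball1 : ∀ x : X, 1 ≤ (reachA A m x).ncard := by
    intro x
    rw [Nat.one_le_iff_ne_zero]
    intro h0
    rw [Set.ncard_eq_zero (reachA_finite hAf m x)] at h0
    have := self_mem_reachA A m x
    rw [h0] at this
    exact this
  have hmK : K ≤ m := by
    by_contra hlt
    push Not at hlt
    have h1 := hcon x₀
    have h2 := hball1 x₀
    have h3 : m * m ≤ K * K := Nat.mul_le_mul hlt.le hlt.le
    nlinarith only [h1, h3, h2]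
  set q : ℕ := m / K with hqdef
  have hq1 : 1 ≤ q := (Nat.one_le_div_iff hKpos).2 hmK
  have hmq : m < (q + 1) * K := by
    have h2 := Nat.div_add_mod m K
    have h3 := Nat.mod_lt m hKpos
    rw [← hqdef] at h2
    nlinarith only [h2, h3]
  set m' : ℕ := m / (2 * L) with hm'
  have hm'q : m' / (2 * R) = q := by
    rw [hm', hqdef, Nat.div_div_eq_div_mul, hK]
    congr 1
    ring
  have hsmall : ∀ x : X, (bl s (2 * m') x).card < (m' / (2 * R)) * (m' / (2 * R)) := by
    intro x
    rw [hm'q]
    have h1 : ((bl s (2 * m') x : Finset X) : Set X) ⊆ reachA A m x := by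
      intro y hy
      rw [Finset.mem_coe, mem_bl] at hy
      obtain ⟨w, hw, rfl⟩ := hy
      obtain ⟨w', hw1, hw2, hw3⟩ := exists_long_word hL w
      refine ⟨w', ?_, hw2, by rw [hw3]⟩
      have h2 : L * w.length ≤ L * (2 * m') := Nat.mul_le_mul_left _ hw
      have h3 : 2 * L * m' ≤ m := Nat.mul_div_le m (2 * L)
      have h4 : L * (2 * m') = 2 * L * m' := by ring
      omega
    have h2 : (bl s (2 * m') x).card ≤ (reachA A m x).ncard := by
      rw [← Set.ncard_coe_finset]
      exact Set.ncard_le_ncard h1 (reachA_finite hAf m x)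
    have h3 := hcon x
    by_contra hge
    push Not at hge
    have h4 : q * q ≤ (reachA A m x).ncard := hge.trans h2
    have h5 : 4 * K * K * (q * q) ≤ 4 * K * K * (reachA A m x).ncard := Nat.mul_le_mul_left _ h4
    have h6 : m * m ≤ ((q + 1) * K) * ((q + 1) * K) := Nat.mul_le_mul hmq.le hmq.le
    have h7 : (q + 1) ≤ 2 * q := by omega
    have h8 : ((q + 1) * K) * ((q + 1) * K) ≤ (2 * q * K) * (2 * q * K) :=
      Nat.mul_le_mul (Nat.mul_le_mul_right _ h7) (Nat.mul_le_mul_right _ h7)
    have h9 : (2 * q * K) * (2 * q * K) = 4 * K * K * (q * q) := by ring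
    omega
  obtain ⟨C, M, hM, hC⟩ := exists_partition (X := X) s R m' (by omega) hsmall
  obtain ⟨N, hN, hfi, hne⟩ := quotient_of_partition φ hφ S hSfin hS hG R (by
    intro y hy
    have := Finset.le_sup (f := fun x : FreeGroup (Fin n) => x.toWord.length)
      (hSfin.mem_toFinset.2 hy)
    omega) C M hM (fun x w₁ w₂ w₃ h1 h2 h3 => by
      rcases hC x w₁ w₂ w₃ h1 h2 h3 with h | h | h
      · exact Or.inl h
      · exact Or.inr (Or.inl h)
      · exact Or.inr (Or.inr h)) x₀ (orbit_infinite_of_no_quotient hq x₀ g hgx)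
  exact hne (hq N hN hfi)

/-- Asymptotic dimension at least two, partition version. -/
theorem partition_obstruction {G : Type u} [Group G] [Group.IsFinitelyPresented G]
    (hG : IsAmenable G) (hq : ∀ N : Subgroup G, N.Normal → N.FiniteIndex → N = ⊤) :
    ∃ F : Finset G, ∀ (X : Type v) [MulAction G X], (∃ (g : G) (x : X), g • x ≠ x) →
      ∀ (r : Setoid X) (M : ℕ), (∀ x, {y | r x y}.encard ≤ M) →
        ∃ x : X, ∃ a ∈ F, ∃ b ∈ F, ∃ c ∈ F,
          ¬ r (a • x) (b • x) ∧ ¬ r (a • x) (c • x) ∧ ¬ r (b • x) (c • x) := by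
  obtain ⟨F, hF⟩ := exists_finset_quotient.{u, v} hG
  refine ⟨F, ?_⟩
  rintro X _ ⟨g, x, hgx⟩ r M hM
  by_contra hcon
  push Not at hcon
  obtain ⟨N, hN, hfi, hne⟩ := hF X r M hM (fun y a ha b hb c hc => by
    by_cases h1 : r (a • y) (b • y)
    · exact Or.inl h1
    · by_cases h2 : r (a • y) (c • y)
      · exact Or.inr (Or.inl h2)
      · exact Or.inr (Or.inr (hcon y a ha b hb c hc h1 h2))) x
    (orbit_infinite_of_no_quotient hq x g hgx)
  exact hne (hq N hN hfi)

/-- Metric version: no nontrivial action by bounded displacement over a space of bounded geometry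
and asymptotic dimension at most one. -/
theorem metric_obstruction {G : Type u} [Group G] [Group.IsFinitelyPresented G]
    (hG : IsAmenable G) (hq : ∀ N : Subgroup G, N.Normal → N.FiniteIndex → N = ⊤)
    (Y : Type v) [PseudoMetricSpace Y]
    (hgeom : ∀ r : ℝ, ∃ b : ℕ, ∀ y : Y, (Metric.closedBall y r).encard ≤ b)
    (hdim : ∀ r : ℝ, ∃ (D : ℝ) (𝒰 : Set (Set Y)), (∀ y : Y, ∃ U ∈ 𝒰, y ∈ U) ∧
      (∀ U ∈ 𝒰, ∀ y ∈ U, ∀ z ∈ U, dist y z ≤ D) ∧
      ∀ y : Y, {U ∈ 𝒰 | (U ∩ Metric.closedBall y r).Nonempty}.encard ≤ 2)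
    (X : Type v) [MulAction G X] (π : X → Y) (k : ℕ) (hk : ∀ y, (π ⁻¹' {y}).encard ≤ k)
    (hπ : ∀ g : G, ∃ L : ℝ, ∀ x, dist (π x) (π (g • x)) ≤ L) :
    ∀ (g : G) (x : X), g • x = x := by
  classical
  intro g x
  by_contra hgx
  obtain ⟨F, hF⟩ := partition_obstruction.{u, v} hG hq
  choose L hL using hπ
  obtain ⟨r, hr⟩ : ∃ r : ℝ, ∀ a ∈ F, L a ≤ r := by
    obtain ⟨r, hr⟩ := (F.image L).finite_toSet.bddAbove
    exact ⟨r, fun a ha => hr (by
      rw [Finset.mem_coe, Finset.mem_image]
      exact ⟨a, ha, rfl⟩)⟩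
  obtain ⟨D, 𝒰, hcov, hdiam, hmult⟩ := hdim r
  choose U hU hyU using hcov
  obtain ⟨b, hb⟩ := hgeom D
  let rel : Setoid X := Setoid.comap (fun z => U (π z)) ⊥
  have hrel : ∀ y z : X, rel y z ↔ U (π y) = U (π z) := fun y z => Iff.rfl
  obtain ⟨y, a, ha, b', hb', c, hc, h1, h2, h3⟩ := hF X ⟨g, x, hgx⟩ rel (b * k) (by
    intro y
    have hsub : {z | rel y z} ⊆ ⋃ w ∈ Metric.closedBall (π y) D, π ⁻¹' {w} := by
      intro z hz
      have hz' : U (π y) = U (π z) := (hrel y z).1 hz
      have h1 : π z ∈ U (π y) := by rw [hz']; exact hyU _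
      have h2 := hdiam _ (hU (π y)) _ (hyU (π y)) _ h1
      simp only [Set.mem_iUnion]
      exact ⟨π z, by rw [Metric.mem_closedBall, dist_comm]; exact h2, rfl⟩
    have hfin : (Metric.closedBall (π y) D).Finite := Set.finite_of_encard_le_coe (hb (π y))
    refine (Set.encard_le_encard hsub).trans ?_
    have hsub' : (⋃ w ∈ Metric.closedBall (π y) D, π ⁻¹' {w}).encard ≤
        ((hfin.toFinset.card * k : ℕ) : ℕ∞) := by
      have hfin' : ∀ w, (π ⁻¹' {w}).Finite := fun w => Set.finite_of_encard_le_coe (hk w)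
      have h4 : (⋃ w ∈ Metric.closedBall (π y) D, π ⁻¹' {w}) =
          ((hfin.toFinset.biUnion (fun w => (hfin' w).toFinset) : Finset X) : Set X) := by
        ext z
        simp only [Metric.mem_closedBall, Set.mem_iUnion, Set.mem_preimage, Set.mem_singleton_iff, exists_prop, exists_eq_right', Finset.coe_biUnion, Set.Finite.coe_toFinset]
      rw [h4, Set.encard_coe_eq_coe_finsetCard]
      have h5 : (hfin.toFinset.biUnion (fun w => (hfin' w).toFinset)).card ≤
          hfin.toFinset.card * k := by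
        refine Finset.card_biUnion_le_card_mul _ _ _ ?_
        intro w _
        have := hk w
        rw [(hfin' w).encard_eq_coe_toFinset_card] at this
        exact_mod_cast this
      exact_mod_cast h5
    refine hsub'.trans ?_
    have h6 : hfin.toFinset.card ≤ b := by
      have := hb (π y)
      rw [hfin.encard_eq_coe_toFinset_card] at this
      exact_mod_cast this
    exact_mod_cast Nat.mul_le_mul_right _ h6)
  rw [hrel] at h1 h2 h3
  have hmem : ∀ a ∈ F, U (π (a • y)) ∈ {U ∈ 𝒰 | (U ∩ Metric.closedBall (π y) r).Nonempty} := by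
    intro a ha
    refine ⟨hU _, π (a • y), hyU _, ?_⟩
    rw [Metric.mem_closedBall, dist_comm]
    exact (hL a y).trans (hr a ha)
  have hthree : ({U (π (a • y)), U (π (b' • y)), U (π (c • y))} : Set (Set Y)).encard = 3 := by
    rw [Set.encard_insert_of_notMem, Set.encard_pair h3]
    · norm_num
    · simp only [Set.mem_insert_iff, Set.mem_singleton_iff, not_or]
      exact ⟨h1, h2⟩
  have hle : ({U (π (a • y)), U (π (b' • y)), U (π (c • y))} : Set (Set Y)).encard ≤ 2 := by
    refine (Set.encard_le_encard ?_).trans (hmult (π y))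
    intro V hV
    rcases hV with rfl | rfl | rfl
    · exact hmem a ha
    · exact hmem b' hb'
    · exact hmem c hc
  rw [hthree] at hle
  exact absurd hle (by norm_num)

end Vale.Agent.P196
end
end

section

section

namespace Vale.Agent.P196

universe u v

theorem no_quotient_of_simple_infinite {G : Type*} [Group G] [IsSimpleGroup G] [Infinite G] :
    ∀ N : Subgroup G, N.Normal → N.FiniteIndex → N = ⊤ := by
  intro N hN hfi
  by_contra hne
  have : Finite G := finite_of_simple_of_quotient ⟨N, hN, hfi, hne⟩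
  exact not_finite G

theorem asdim_main {G : Type u} [Group G] [Group.IsFinitelyPresented G] [IsSimpleGroup G]
    [Infinite G] (hG : IsAmenable G) :
    (∃ F : Finset G, ∀ (X : Type v) [MulAction G X], (∃ (g : G) (x : X), g • x ≠ x) →
      ∀ (r : Setoid X) (M : ℕ), (∀ x, {y | r x y}.encard ≤ M) →
        ∃ x : X, ∃ a ∈ F, ∃ b ∈ F, ∃ c ∈ F,
          ¬ r (a • x) (b • x) ∧ ¬ r (a • x) (c • x) ∧ ¬ r (b • x) (c • x)) ∧
    (∀ A : Set G, A.Finite → Subgroup.closure A = ⊤ →
      ∃ c : ℕ, ∀ (X : Type v) [MulAction G X], (∃ (g : G) (x : X), g • x ≠ x) →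
        ∀ m : ℕ, ∃ x : X, m ^ 2 ≤ c * {y : X | ∃ w : List G, w.length ≤ m ∧
          (∀ a ∈ w, a ∈ A ∨ a⁻¹ ∈ A) ∧ y = w.prod • x}.ncard) ∧
    (∀ (Y : Type v) [PseudoMetricSpace Y],
      (∀ r : ℝ, ∃ b : ℕ, ∀ y : Y, (Metric.closedBall y r).encard ≤ b) →
      (∀ r : ℝ, ∃ (D : ℝ) (𝒰 : Set (Set Y)), (∀ y : Y, ∃ U ∈ 𝒰, y ∈ U) ∧
        (∀ U ∈ 𝒰, ∀ y ∈ U, ∀ z ∈ U, dist y z ≤ D) ∧
        ∀ y : Y, {U ∈ 𝒰 | (U ∩ Metric.closedBall y r).Nonempty}.encard ≤ 2) →
      ∀ (X : Type v) [MulAction G X] (π : X → Y) (k : ℕ), (∀ y, (π ⁻¹' {y}).encard ≤ k) →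
        (∀ g : G, ∃ L : ℝ, ∀ x, dist (π x) (π (g • x)) ≤ L) →
        ∀ (g : G) (x : X), g • x = x) := by
  refine ⟨partition_obstruction.{u, v} hG no_quotient_of_simple_infinite, ?_, ?_⟩
  · intro A hAf hA
    obtain ⟨c, hc⟩ := quadratic_growth.{u, v} hG no_quotient_of_simple_infinite A hAf hA
    refine ⟨c, ?_⟩
    intro X _ hX m
    obtain ⟨x, hx⟩ := hc X hX m
    exact ⟨x, by rw [pow_two]; exact hx⟩
  · intro Y _ hgeom hdim X _ π k hk hπ
    exact metric_obstruction.{u, v} hG no_quotient_of_simple_infinite Y hgeom hdim X π k hk hπ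

end Vale.Agent.P196
end
end

section

section

namespace Vale.Agent.P196.B

open Function

section Count

variable {G Ω : Type*} [Group G] [MulAction G Ω]

/-- Points of `D` moved out of `D` by `g`. -/
def leave (g : G) (D : Set Ω) : Set Ω := {v | v ∈ D ∧ g • v ∉ D}

theorem leave_finite (g : G) {D : Set Ω} (hD : D.Finite) : (leave g D).Finite :=
  hD.subset fun _ h => h.1

theorem ncard_leave_mul (g h : G) {D : Set Ω} (hD : D.Finite) :
    (leave (g * h) D).ncard ≤ (leave g D).ncard + (leave h D).ncard := by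
  have hsub : leave (g * h) D ⊆ (fun v => h⁻¹ • v) '' (leave g D) ∪ leave h D := by
    rintro v ⟨hv, hv'⟩
    by_cases hh : h • v ∈ D
    · left
      exact ⟨h • v, ⟨hh, by rwa [← mul_smul]⟩, inv_smul_smul h v⟩
    · exact Or.inr ⟨hv, hh⟩
  have hf : ((fun v => h⁻¹ • v) '' (leave g D)).Finite := (leave_finite g hD).image _
  calc _ ≤ ((fun v => h⁻¹ • v) '' (leave g D) ∪ leave h D).ncard :=
        Set.ncard_le_ncard hsub (hf.union (leave_finite h hD))
    _ ≤ _ := Set.ncard_union_le _ _
    _ ≤ _ := Nat.add_le_add_right (Set.ncard_image_le (leave_finite g hD)) _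

theorem ncard_leave_inv (g : G) {D : Set Ω} (hD : D.Finite) :
    (leave g⁻¹ D).ncard = (leave g D).ncard := by
  have key : ∀ g : G, (leave g D).ncard + (D ∩ (fun v => g • v) ⁻¹' D).ncard = D.ncard := by
    intro g
    rw [← Set.ncard_union_eq _ (leave_finite g hD) (hD.subset Set.inter_subset_left)]
    · congr 1
      ext v
      simp only [leave, Set.mem_union, Set.mem_ofPred_eq, Set.mem_inter_iff, Set.mem_preimage]
      tauto
    · rw [Set.disjoint_left]
      rintro v ⟨_, h1⟩ ⟨_, h2⟩
      exact h1 h2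
  have h2 : (D ∩ (fun v => g⁻¹ • v) ⁻¹' D).ncard = (D ∩ (fun v => g • v) ⁻¹' D).ncard := by
    have : (D ∩ (fun v => g⁻¹ • v) ⁻¹' D) = (fun v => g • v) '' (D ∩ (fun v => g • v) ⁻¹' D) := by
      ext v
      simp only [Set.mem_inter_iff, Set.mem_preimage, Set.mem_image]
      constructor
      · rintro ⟨h1, h2⟩
        exact ⟨g⁻¹ • v, ⟨h2, by rwa [smul_inv_smul]⟩, smul_inv_smul g v⟩
      · rintro ⟨u, ⟨h1, h2⟩, rfl⟩
        exact ⟨h2, by rwa [inv_smul_smul]⟩
    rw [this, Set.ncard_image_of_injective _ (MulAction.injective g)]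
  have := key g
  have := key g⁻¹
  omega

/-- The boundary of `D` with respect to the set `S`. -/
def bdS (S : Set G) (D : Set Ω) : Set Ω := {v | v ∈ D ∧ ∃ s ∈ S, s • v ∉ D}

theorem exists_const (S : Set G) (hS : Subgroup.closure S = ⊤) (g : G) (Ω : Type*)
    [MulAction G Ω] :
    ∃ C : ℕ, ∀ D : Set Ω, D.Finite → (leave g D).ncard ≤ C * (bdS S D).ncard := by
  have hg : g ∈ Subgroup.closure S := hS ▸ Subgroup.mem_top g
  induction hg using Subgroup.closure_induction with
  | mem s hs =>
    refine ⟨1, fun D hD => ?_⟩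
    rw [one_mul]
    exact Set.ncard_le_ncard (fun v hv => ⟨hv.1, s, hs, hv.2⟩) (hD.subset fun _ h => h.1)
  | one =>
    refine ⟨0, fun D hD => ?_⟩
    have : leave (1 : G) D = ∅ := by
      ext v
      simp only [leave, one_smul, Set.mem_ofPred_eq, Set.mem_empty_iff_false, iff_false]
      tauto
    simp [this]
  | mul g h _ _ ihg ihh =>
    obtain ⟨C, hC⟩ := ihg
    obtain ⟨C', hC'⟩ := ihh
    refine ⟨C + C', fun D hD => ?_⟩
    calc _ ≤ (leave g D).ncard + (leave h D).ncard := ncard_leave_mul g h hD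
      _ ≤ C * (bdS S D).ncard + C' * (bdS S D).ncard := add_le_add (hC D hD) (hC' D hD)
      _ = _ := by ring
  | inv g _ ih =>
    obtain ⟨C, hC⟩ := ih
    exact ⟨C, fun D hD => by rw [ncard_leave_inv g hD]; exact hC D hD⟩

end Count

section Main

variable {G : Type*} [Group G]

theorem ball_finite {L Ω : Type*} [Fintype L] (a : L → Ω → Ω) {D : Set Ω} (hD : D.Finite)
    (m : ℕ) : (ball a D m).Finite := by
  have h := encard_ball_le a D m
  rw [← Set.encard_ne_top_iff]
  intro htop
  rw [htop, top_le_iff] at h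
  rw [hD.encard_eq_coe, ← Nat.cast_mul] at h
  exact ENat.natCast_ne_top _ h

/-- **Bounded boundary theorem.** -/
theorem boundary_tendsto [Group.IsFinitelyPresented G]
    (hq : ∀ N : Subgroup G, N.Normal → N.FiniteIndex → N = ⊤) (S : Set G) (hS : Subgroup.closure S = ⊤) (Ω : Type*) [MulAction G Ω]
    [MulAction.IsPretransitive G Ω] [Infinite Ω] :
    Filter.Tendsto (fun D : Finset Ω => (bdS S (↑D : Set Ω)).ncard) Filter.atTop Filter.atTop := by
  classical
  obtain ⟨n, φ, hφ, R, hfin, hR⟩ := (inferInstance : Group.IsFinitelyPresented G).out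
  set a := la (gens φ Ω) with ha
  -- compare the two boundaries
  obtain ⟨C, hC⟩ : ∃ C : ℕ, ∀ D : Set Ω, D.Finite → (bd a D).ncard ≤ C * (bdS S D).ncard := by
    have hl : ∀ l : Fin n × Bool, ∃ g : G, ∀ v : Ω, a l v = g • v := by
      rintro ⟨i, b⟩
      cases b
      · exact ⟨(φ (FreeGroup.of i))⁻¹, fun v => rfl⟩
      · exact ⟨φ (FreeGroup.of i), fun v => rfl⟩
    choose g hg using hl
    choose C hC using fun l => exists_const S hS (g l) Ω
    refine ⟨∑ l, C l, fun D hD => ?_⟩
    have hsub : bd a D ⊆ ⋃ l ∈ (Finset.univ : Finset (Fin n × Bool)), leave (g l) D := by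
      rintro v ⟨hv, l, hl⟩
      simp only [Finset.mem_univ, Set.iUnion_true, Set.mem_iUnion]
      exact ⟨l, hv, by rwa [← hg]⟩
    have hfin' : (⋃ l ∈ (Finset.univ : Finset (Fin n × Bool)), leave (g l) D).Finite :=
      Set.Finite.biUnion (Finset.finite_toSet _) fun l _ => leave_finite _ hD
    calc _ ≤ (⋃ l ∈ (Finset.univ : Finset (Fin n × Bool)), leave (g l) D).ncard :=
          Set.ncard_le_ncard hsub hfin'
      _ ≤ ∑ l, (leave (g l) D).ncard := Finset.set_ncard_biUnion_le _ _
      _ ≤ ∑ l, C l * (bdS S D).ncard := Finset.sum_le_sum fun l _ => hC l D hD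
      _ = _ := by rw [Finset.sum_mul]
  rw [Filter.tendsto_atTop_atTop]
  intro k
  by_contra hcon
  push Not at hcon
  obtain ⟨N, m, hNm⟩ := slab_false hq hfin hφ hR (C * k)
  choose F hF hF' using hcon
  have hfb : ∀ E : Finset Ω, (ball a (↑E : Set Ω) m).Finite := fun E =>
    ball_finite a E.finite_toSet m
  obtain ⟨v₀⟩ : Nonempty Ω := inferInstance
  obtain ⟨D, hD0, hD1⟩ : ∃ D : ℕ → Finset Ω, D 0 = F {v₀} ∧
      ∀ i, D (i + 1) = F (hfb (D i)).toFinset :=
    ⟨fun i => Nat.rec (F {v₀}) (fun _ E => F (hfb E).toFinset) i, rfl, fun i => rfl⟩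
  have hbd : ∀ i, (bdS S (↑(D i) : Set Ω)).ncard ≤ k := by
    intro i
    cases i with
    | zero => rw [hD0]; exact (hF' {v₀}).le
    | succ i => rw [hD1]; exact (hF' _).le
  refine hNm Ω (fun i => ((D i : Finset Ω) : Set Ω)) ⟨v₀, ?_⟩ ?_ ?_ ?_ ?_
  · rw [hD0]; exact hF {v₀} (Finset.mem_singleton_self _)
  · intro h
    have : (Set.univ : Set Ω).Finite := h ▸ Finset.finite_toSet (D N)
    exact Set.infinite_univ this
  · intro i _
    change ball a _ m ⊆ ↑(D (i + 1))
    rw [hD1]
    have := hF (hfb (D i)).toFinset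
    intro x hx
    exact this ((Set.Finite.mem_toFinset _).2 hx)
  · intro i _
    have h1 := hC (↑(D i)) (D i).finite_toSet
    have h2 : (bd a (↑(D i) : Set Ω)).Finite := (D i).finite_toSet.subset (bd_subset a _)
    change (bd a (↑(D i) : Set Ω)).encard ≤ _
    rw [← h2.cast_ncard_eq, Nat.cast_le]
    exact h1.trans (Nat.mul_le_mul_left _ (hbd i))
  · exact (D N).finite_toSet.subset Set.sdiff_subset

end Main

end Vale.Agent.P196.B
end
end

section

section

namespace Vale.Agent.P196.B

open Function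

section Growth

variable {G : Type*} [Group G] {Ω : Type*} [MulAction G Ω]

/-- Points reached from `v` by words of length at most `n` in `S` and inverses. -/
def reach (S : Set G) (v : Ω) (n : ℕ) : Set Ω :=
  {x | ∃ w : List G, w.length ≤ n ∧ (∀ s ∈ w, s ∈ S ∨ s⁻¹ ∈ S) ∧ x = w.prod • v}

theorem reach_succ (S : Set G) (v : Ω) (n : ℕ) {x : Ω} (hx : x ∈ reach S v n) {s : G}
    (hs : s ∈ S) : s • x ∈ reach S v (n + 1) := by
  obtain ⟨w, hw, hw', rfl⟩ := hx
  refine ⟨s :: w, by simpa only [List.length_cons, add_le_add_iff_right] using hw, ?_, by rw [List.prod_cons, mul_smul]⟩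
  intro t ht
  rcases List.mem_cons.mp ht with rfl | ht
  · exact Or.inl hs
  · exact hw' t ht

theorem reach_mono (S : Set G) (v : Ω) {m n : ℕ} (h : m ≤ n) : reach S v m ⊆ reach S v n := by
  rintro x ⟨w, hw, hw', rfl⟩
  exact ⟨w, hw.trans h, hw', rfl⟩

theorem reach_finite (S : Set G) (hS : S.Finite) (v : Ω) (n : ℕ) : (reach S v n).Finite := by
  induction n with
  | zero =>
    apply (Set.finite_singleton v).subset
    rintro x ⟨w, hw, -, rfl⟩
    have : w = [] := List.length_eq_zero_iff.mp (Nat.le_zero.mp hw)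
    subst this
    simp
  | succ n ih =>
    have hfin : (reach S v n ∪ (⋃ s ∈ S, (fun x => s • x) '' reach S v n) ∪
        (⋃ s ∈ S, (fun x => s⁻¹ • x) '' reach S v n)).Finite := by
      apply Set.Finite.union (Set.Finite.union ih _) _
      · exact Set.Finite.biUnion hS fun s _ => ih.image _
      · exact Set.Finite.biUnion hS fun s _ => ih.image _
    apply hfin.subset
    rintro x ⟨w, hw, hw', rfl⟩
    cases w with
    | nil => exact Or.inl (Or.inl ⟨[], Nat.zero_le _, by simp, rfl⟩)
    | cons t w =>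
      have hmem : w.prod • v ∈ reach S v n :=
        ⟨w, by simpa only [List.length_cons, add_le_add_iff_right] using hw, fun s hs => hw' s (List.mem_cons_of_mem _ hs), rfl⟩
      rw [List.prod_cons, mul_smul]
      rcases hw' t List.mem_cons_self with ht | ht
      · refine Or.inl (Or.inr ?_)
        simp only [Set.mem_iUnion]
        exact ⟨t, ht, w.prod • v, hmem, rfl⟩
      · refine Or.inr ?_
        simp only [Set.mem_iUnion]
        exact ⟨t⁻¹, ht, w.prod • v, hmem, by simp⟩

theorem reach_exhaust (S : Set G) (hS : Subgroup.closure S = ⊤) [MulAction.IsPretransitive G Ω]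
    (v x : Ω) : ∃ n, x ∈ reach S v n := by
  obtain ⟨g, rfl⟩ := MulAction.exists_smul_eq G v x
  have hg : g ∈ Subgroup.closure S := hS ▸ Subgroup.mem_top g
  have hg' : g ∈ Submonoid.closure (S ∪ S⁻¹) := by
    rw [← Subgroup.closure_toSubmonoid]; exact hg
  obtain ⟨w, hw, rfl⟩ := Submonoid.exists_list_of_mem_closure hg'
  exact ⟨w.length, w, le_rfl, hw, rfl⟩

theorem bdS_reach_subset (S : Set G) (v : Ω) (n : ℕ) :
    bdS S (reach S v (n + 1)) ⊆ reach S v (n + 1) \ reach S v n := by
  rintro x ⟨hx, s, hs, hs'⟩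
  exact ⟨hx, fun h => hs' (reach_succ S v n h hs)⟩

/-- Superlinear growth of infinite Schreier graphs. -/
theorem growth_superlinear [Group.IsFinitelyPresented G]
    (hq : ∀ N : Subgroup G, N.Normal → N.FiniteIndex → N = ⊤) (S : Set G) (hSf : S.Finite)
    (hS : Subgroup.closure S = ⊤) (Ω : Type*) [MulAction G Ω]
    [MulAction.IsPretransitive G Ω] [Infinite Ω] (v : Ω) (C : ℕ) :
    ∀ᶠ n : ℕ in Filter.atTop, C * n ≤ (reach S v n).ncard := by
  classical
  have htend := boundary_tendsto hq S hS Ω
  rw [Filter.tendsto_atTop_atTop] at htend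
  obtain ⟨D₀, hD₀⟩ := htend (2 * C)
  choose r hr using fun x : Ω => reach_exhaust S hS v x
  set n₀ := D₀.sup r with hn₀
  have hsub : ∀ n, n₀ ≤ n → ∀ x ∈ D₀, x ∈ reach S v n := fun n hn x hx =>
    reach_mono S v ((Finset.le_sup hx).trans hn) (hr x)
  have hstep : ∀ n, n₀ ≤ n → (reach S v n).ncard + 2 * C ≤ (reach S v (n + 1)).ncard := by
    intro n hn
    have hf := reach_finite S hSf v (n + 1)
    have h1 := hD₀ hf.toFinset (fun x hx => (Set.Finite.mem_toFinset _).2
      (hsub (n + 1) (by omega) x hx))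
    rw [Set.Finite.coe_toFinset] at h1
    have h2 : (bdS S (reach S v (n + 1))).ncard ≤
        (reach S v (n + 1) \ reach S v n).ncard :=
      Set.ncard_le_ncard (bdS_reach_subset S v n) (hf.subset Set.sdiff_subset)
    have h3 := Set.ncard_sdiff_add_ncard_of_subset (reach_mono (Ω := Ω) S v (show n ≤ n + 1 by omega)) hf
    omega
  have hall : ∀ n, (2 * C) * n ≤ (reach S v (n₀ + n)).ncard := by
    intro n
    induction n with
    | zero => simp
    | succ n ih =>
      have := hstep (n₀ + n) (by omega)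
      have e : 2 * C * (n + 1) = 2 * C * n + 2 * C := by ring
      rw [e, ← add_assoc]
      omega
  rw [Filter.eventually_atTop]
  refine ⟨2 * n₀, fun n hn => ?_⟩
  obtain ⟨k, rfl⟩ := Nat.exists_eq_add_of_le (show n₀ ≤ n by omega)
  have h1 := hall k
  have h2 : n₀ ≤ k := by omega
  calc C * (n₀ + k) ≤ C * (k + k) := Nat.mul_le_mul_left _ (by omega)
    _ = 2 * C * k := by ring
    _ ≤ _ := h1

end Growth

end Vale.Agent.P196.B
end
end

section

section

namespace Vale.Agent.P196.B

open Function

/-- A finitely presented group without finite quotients has no non-trivial action by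
transformations with bounded displacement along the orbits of a single permutation. -/
theorem bounded_displacement_trivial {G X : Type*} [Group G] [MulAction G X]
    [Group.IsFinitelyPresented G] (hq : ∀ N : Subgroup G, N.Normal → N.FiniteIndex → N = ⊤)
    (f : Equiv.Perm X)
    (h : ∀ g : G, ∃ B : ℕ, ∀ x : X, ∃ n : ℤ, |n| ≤ B ∧ g • x = (f ^ n) x) (g : G) (x : X) :
    g • x = x := by
  classical
  by_contra hgx
  obtain ⟨n, φ, hφ, R, hfin, hR⟩ := (inferInstance : Group.IsFinitelyPresented G).out
  -- generating set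
  let S : Set G := Set.range fun i => φ (FreeGroup.of i)
  have hS : Subgroup.closure S = ⊤ := by
    have : S = φ '' Set.range (FreeGroup.of : Fin n → FreeGroup (Fin n)) := by
      rw [← Set.range_comp]; rfl
    rw [this, ← MonoidHom.map_closure, FreeGroup.closure_range_of, ← MonoidHom.range_eq_map]
    exact MonoidHom.range_eq_top.2 hφ
  obtain ⟨B, hB⟩ : ∃ B : ℕ, ∀ s ∈ S, ∀ x : X, ∃ n : ℤ, |n| ≤ B ∧ s • x = (f ^ n) x := by
    choose b hb using h
    refine ⟨Finset.univ.sup fun i => b (φ (FreeGroup.of i)), ?_⟩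
    rintro s ⟨i, rfl⟩ x
    obtain ⟨k, hk, hk'⟩ := hb (φ (FreeGroup.of i)) x
    refine ⟨k, hk.trans ?_, hk'⟩
    have : b (φ (FreeGroup.of i)) ≤ Finset.univ.sup fun i => b (φ (FreeGroup.of i)) :=
      Finset.le_sup (f := fun i => b (φ (FreeGroup.of i))) (Finset.mem_univ i)
    exact_mod_cast this
  -- the orbit
  let Ω := MulAction.orbit G x
  have hinf : Infinite Ω := by
    by_contra hc
    rw [not_infinite_iff_finite] at hc
    have h1 : MulAction.toPermHom G Ω = 1 := hom_finite_eq_one hq _
    have h2 : (MulAction.toPermHom G Ω g) ⟨x, MulAction.mem_orbit_self x⟩ =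
      ⟨x, MulAction.mem_orbit_self x⟩ := by rw [h1]; rfl
    exact hgx (congrArg Subtype.val h2)
  have horb : ∀ y : Ω, ∃ k : ℤ, (y : X) = (f ^ k) x := by
    rintro ⟨y, g', rfl⟩
    obtain ⟨B', hB'⟩ := h g'
    obtain ⟨k, -, hk⟩ := hB' x
    exact ⟨k, hk⟩
  choose k hk using horb
  have kinj : Injective k := by
    intro y z hyz
    apply Subtype.ext
    rw [hk y, hk z, hyz]
  -- powers of `f` are injective at `x`
  have finj : ∀ a b : ℤ, (f ^ a) x = (f ^ b) x → a = b := by
    intro a b hab
    by_contra hne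
    have hper : ∃ p : ℕ, 0 < p ∧ (f ^ p) x = x := by
      have h0 : (f ^ (a - b)) x = x := by
        rw [zpow_sub, Equiv.Perm.mul_apply]
        have : (f ^ a) ((f ^ b)⁻¹ x) = (f ^ b)⁻¹ ((f ^ a) x) := by
          rw [← Equiv.Perm.mul_apply, ← Equiv.Perm.mul_apply]
          congr 1
          rw [← zpow_neg, ← zpow_add, ← zpow_add, add_comm]
        rw [this, hab, ← Equiv.Perm.mul_apply, inv_mul_cancel, Equiv.Perm.one_apply]
      rcases Int.natAbs_eq (a - b) with h' | h'
      · refine ⟨(a - b).natAbs, by omega, ?_⟩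
        rw [← zpow_natCast, ← h', h0]
      · refine ⟨(a - b).natAbs, by omega, ?_⟩
        have h2 : (f ^ (-(a - b))) x = x := by
          rw [zpow_neg, Equiv.Perm.inv_eq_iff_eq, h0]
        rw [← zpow_natCast]
        have : (((a - b).natAbs : ℕ) : ℤ) = -(a - b) := by omega
        rw [this, h2]
    obtain ⟨p, hp, hpx⟩ := hper
    have hp' : (f ^ (p : ℤ)) x = x := by rw [zpow_natCast, hpx]
    have hpm : ∀ q : ℤ, (f ^ ((p : ℤ) * q)) x = x := by
      intro q
      rw [zpow_mul]
      exact Equiv.Perm.zpow_apply_eq_self_of_apply_eq_self hp' q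
    have : Finite Ω := by
      have hsub : Set.range (fun y : Ω => (y : X)) ⊆
          (fun r : ℕ => (f ^ r) x) '' (Set.Iio p) := by
        rintro _ ⟨y, rfl⟩
        refine ⟨((k y) % p).toNat, ?_, ?_⟩
        · rw [Set.mem_Iio]
          have h1 := Int.emod_lt_of_pos (k y) (show (0 : ℤ) < p by exact_mod_cast hp)
          have h2 := Int.emod_nonneg (k y) (show (p : ℤ) ≠ 0 by exact_mod_cast hp.ne')
          omega
        · have h2 := Int.emod_nonneg (k y) (show (p : ℤ) ≠ 0 by exact_mod_cast hp.ne')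
          change (f ^ ((k y) % p).toNat) x = y
          rw [hk y, ← zpow_natCast, Int.toNat_of_nonneg h2]
          conv_rhs => rw [← Int.emod_add_mul_ediv (k y) p, zpow_add, Equiv.Perm.mul_apply, hpm]
      have hf : (Set.range (fun y : Ω => (y : X))).Finite :=
        ((Set.finite_Iio p).image _).subset hsub
      rw [Set.finite_range_iff Subtype.val_injective] at hf
      exact hf
    exact not_finite Ω
  have htend := boundary_tendsto hq S hS Ω
  rw [Filter.tendsto_atTop_atTop] at htend
  obtain ⟨D₀, hD₀⟩ := htend (2 * (B + 1) + 1)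
  obtain ⟨M, hM⟩ : ∃ M : ℕ, ∀ y ∈ D₀, |k y| ≤ M := by
    refine ⟨D₀.sup fun y => (k y).natAbs, fun y hy => ?_⟩
    have : (k y).natAbs ≤ D₀.sup fun y => (k y).natAbs :=
      Finset.le_sup (f := fun y => (k y).natAbs) hy
    rw [Int.abs_eq_natAbs]
    exact_mod_cast this
  have hDfin : {y : Ω | |k y| ≤ M}.Finite := by
    apply Set.Finite.of_finite_image _ kinj.injOn
    apply (Set.finite_Icc (-(M : ℤ)) M).subset
    rintro _ ⟨y, hy, rfl⟩
    exact abs_le.mp hy
  have h1 := hD₀ hDfin.toFinset (fun y hy => (Set.Finite.mem_toFinset _).2 (hM y hy))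
  have h2 : (bdS S (↑hDfin.toFinset : Set Ω)).ncard ≤ 2 * (B + 1) := by
    have hmaps : Set.MapsTo k (bdS S (↑hDfin.toFinset : Set Ω))
        (↑(Finset.Icc ((M : ℤ) - B) M ∪ Finset.Icc (-(M : ℤ)) (-(M : ℤ) + B)) : Set ℤ) := by
      rintro y ⟨hy, s, hs, hs'⟩
      rw [Set.Finite.coe_toFinset] at hy hs'
      have hy' : |k y| ≤ M := hy
      obtain ⟨j, hj, hj'⟩ := hB s hs y
      have hks : k (s • y) = j + k y := by
        apply finj
        rw [← hk (s • y), zpow_add, Equiv.Perm.mul_apply, ← hk y, ← hj']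
        rfl
      have hnot : ¬ |k (s • y)| ≤ M := hs'
      rw [hks] at hnot
      rw [abs_le] at hy' hj
      simp only [Finset.coe_union, Finset.coe_Icc, Set.mem_union, Set.mem_Icc]
      rw [abs_le] at hnot
      omega
    have := Set.ncard_le_ncard_of_injOn k hmaps kinj.injOn (Finset.finite_toSet _)
    rw [Set.ncard_coe_finset] at this
    refine this.trans ((Finset.card_union_le _ _).trans ?_)
    rw [Int.card_Icc, Int.card_Icc]
    omega
  omega

/-- Membership in the topological full group of the homeomorphism `φ`: there is a locally constant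
function `n : X → ℤ` with finitely many values (that is, a finite clopen partition with an integer
on each piece) such that `g x = φ ^ (n x) x`. -/
def InFullGroup {X : Type*} [TopologicalSpace X] (φ g : X ≃ₜ X) : Prop :=
  ∃ n : X → ℤ, IsLocallyConstant n ∧ (Set.range n).Finite ∧ ∀ x, g x = (φ ^ n x) x

theorem full_group_quotient {X : Type*} [TopologicalSpace X] (φ : X ≃ₜ X)
    (G : Subgroup (X ≃ₜ X)) (hG : ∀ g ∈ G, InFullGroup φ g)
    [Group.IsFinitelyPresented G] (hne : G ≠ ⊥) :
    ∃ N : Subgroup G, N.Normal ∧ N.FiniteIndex ∧ N ≠ ⊤ := by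
  by_contra hcon
  have hq : ∀ N : Subgroup G, N.Normal → N.FiniteIndex → N = ⊤ := by
    intro N h1 h2
    by_contra h3
    exact hcon ⟨N, h1, h2, h3⟩
  let act : MulAction G X :=
    { smul := fun g x => (g : X ≃ₜ X) x
      one_smul := fun x => rfl
      mul_smul := fun g h x => rfl }
  have hz : ∀ (n : ℤ) (x : X), (φ ^ n) x = (φ.toEquiv ^ n) x := by
    intro n x
    have : ((φ ^ n : X ≃ₜ X)).toEquiv = φ.toEquiv ^ n := by
      let F : (X ≃ₜ X) →* Equiv.Perm X :=
        { toFun := fun g => g.toEquiv, map_one' := rfl, map_mul' := fun _ _ => rfl }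
      exact map_zpow F φ n
    rw [← this]; rfl
  have key := bounded_displacement_trivial (G := G) (X := X) hq φ.toEquiv (fun g => by
    obtain ⟨n, -, hn, hg⟩ := hG g g.2
    obtain ⟨B, hB⟩ := (hn.image fun k => k.natAbs).bddAbove
    refine ⟨B, fun x => ⟨n x, ?_, ?_⟩⟩
    · rw [Int.abs_eq_natAbs]
      exact_mod_cast hB ⟨n x, ⟨x, rfl⟩, rfl⟩
    · change (g : X ≃ₜ X) x = _
      rw [hg x, hz])
  apply hne
  rw [Subgroup.eq_bot_iff_forall]
  intro g hg
  ext x
  exact key ⟨g, hg⟩ x

theorem full_group_main {X : Type*} [TopologicalSpace X] (φ : X ≃ₜ X)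
    (G : Subgroup (X ≃ₜ X)) (hG : ∀ g ∈ G, InFullGroup φ g)
    [Group.IsFinitelyPresented G] :
    (G ≠ ⊥ → ∃ N : Subgroup G, N.Normal ∧ N.FiniteIndex ∧ N ≠ ⊤) ∧
    (IsSimpleGroup G → Finite G) := by
  refine ⟨full_group_quotient φ G hG, fun hs => ?_⟩
  by_contra hinf
  rw [not_finite_iff_infinite] at hinf
  have hne : G ≠ ⊥ := by
    rintro rfl
    exact not_finite (⊥ : Subgroup (X ≃ₜ X))
  obtain ⟨N, h1, h2, h3⟩ := full_group_quotient φ G hG hne
  exact h3 (simple_no_quotient N h1 h2)

end Vale.Agent.P196.B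
end
end
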